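import Vale.Agent.P354CQ.Defs
import Vale.Agent.P354YT.Cut

/-!
PRE: the explicit charts.
-/

set_option linter.all false

open scoped ContDiff
open Set Filter Topology Complex

noncomputable section

namespace Vale.Agent.P354CS

open Vale.Agent.P354n (R4)
open Vale.Agent.P354XG Vale.Agent.P354XD Vale.Agent.P354XR Vale.Agent.P354Z Vale.Agent.P354CQ
open Vale.Agent.P354XE (Lo ur rd)
open Vale.Agent.P354XO (Om Cht sc cn_om sc_ap)
open Vale.Agent.P354YO (sh IsTh)
open Vale.Agent.P354YT (tb qm tb_d Del_pos)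
open Vale.Agent.P354XA (hor)
open Vale.Agent.P354R (Del)

variable {A B A' B' : ℝ → ℝ} {x : E6} {M a : ℝ}

theorem s6_s6 (h1 : A x.2.1 + A' x.2.1 = 0) (h2 : B x.2.1 + B' x.2.1 = 0) :
    s6 A B (s6 A' B' x) = x := by
  have e : ((B x.2.1 / 2 : ℝ) : ℂ) = -(B' x.2.1 / 2 : ℝ) := by
    rw [← ofReal_neg]
    exact congrArg _ (by linarith)
  simp only [s6, ← mul_assoc, ← exp_add, e]
  refine Prod.ext (by simp only; linarith) (Prod.ext rfl (Prod.ext ?_ ?_)) <;> simp

theorem ph_eq (M : ℝ) (A B : ℝ → ℝ) : ph M A B = s6 (fun r => A r - 4 * M ^ 2 / r) B :=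
  funext fun x => Prod.ext (by simp only [ph, ki, s6, Function.comp]; ring) rfl

theorem hp_eq (M : ℝ) (A B : ℝ → ℝ) : hp' M A B = s6 (fun r => 4 * M ^ 2 / r - A r) (-B) :=
  funext fun x => Prod.ext (by simp only [hp', ko, s6, Function.comp, Pi.neg_apply]; ring) rfl

theorem s6_mem (h : x ∈ P6) : s6 A B x ∈ P6 :=
  ⟨h.1, fun e => h.2 (Prod.ext
    ((mul_eq_zero.1 (congrArg Prod.fst e)).resolve_left (exp_ne_zero _))
    ((mul_eq_zero.1 (congrArg Prod.snd e)).resolve_left (exp_ne_zero _)))⟩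

theorem s6_cd (hA : ContDiffAt ℝ ∞ A x.2.1) (hB : ContDiffAt ℝ ∞ B x.2.1) :
    ContDiffAt ℝ ∞ (s6 A B) x := by
  have r : ContDiffAt ℝ ∞ (fun y : E6 => y.2.1) x := contDiffAt_snd.fst
  have b : ContDiffAt ℝ ∞ (fun y : E6 => ((B y.2.1 / 2 : ℝ) : ℂ)) x :=
    ofRealCLM.contDiff.contDiffAt.comp x ((hB.comp x r).div_const 2)
  exact (contDiffAt_fst.add (hA.comp x r)).prodMk (r.prodMk
    (((b.neg.mul contDiffAt_const).cexp.mul contDiffAt_snd.snd.fst).prodMk
      ((b.mul contDiffAt_const).cexp.mul contDiffAt_snd.snd.snd)))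

theorem s6_cht (hA : ∀ r > 0, ContDiffAt ℝ ∞ A r) (hB : ∀ r > 0, ContDiffAt ℝ ∞ B r) :
    Cht P6 (s6 A B) := by
  have c := cn_om (D := {p : ℝ × ℝ | 0 < p.2}) (isOpen_lt continuous_const continuous_snd)
    fun _ h => h
  have s : ∀ x ∈ P6, ContDiffAt ℝ ∞ (s6 A B) x := fun x h => s6_cd (hA _ h.1) (hB _ h.1)
  have i : ∀ x, s6 (-A) (-B) (s6 A B x) = x := fun x => s6_s6 (by simp) (by simp)
  refine ⟨⟨c, s, fun x _ z _ => ?_, fun x h => (s6_mem h).2⟩, ⟨c.op, s, fun x h => ?_,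
    (Function.LeftInverse.injective i).injOn⟩, fun x h => h.1⟩
  · simp only [s6, sc_ap, Prod.smul_mk, smul_eq_mul, Prod.smul_fst, Prod.smul_snd, mul_left_comm z]
  · have s' : ContDiffAt ℝ ∞ (s6 (-A) (-B)) (s6 A B x) := s6_cd (hA _ h.1).neg (hB _ h.1).neg
    have := fderiv_comp x (s'.differentiableAt (by simp)) ((s x h).differentiableAt (by simp))
    rw [show s6 (-A) (-B) ∘ s6 A B = id from funext i, fderiv_id] at this
    exact Function.LeftInverse.injective (g := fderiv ℝ (s6 (-A) (-B)) (s6 A B x))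
      fun v => (congrArg (fun L : E6 →L[ℝ] E6 => L v) this).symm

theorem pj_s6 (h : x ∈ P6) : pj (s6 A B x) = sh A B (pj x) := by
  have n : ∀ t : ℝ, normSq (exp (t * I)) = 1 := fun t => by
    rw [normSq_eq_norm_sq, norm_exp_ofReal_mul_I, one_pow]
  have n' := n (-(B x.2.1 / 2))
  rw [ofReal_neg] at n'
  have e : starRingEnd ℂ (exp (-(B x.2.1 / 2 : ℝ) * I) * x.2.2.1) *
      (exp ((B x.2.1 / 2 : ℝ) * I) * x.2.2.2) =
      exp (B x.2.1 * I) * (starRingEnd ℂ x.2.2.1 * x.2.2.2) := by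
    rw [map_mul, ← exp_conj, mul_mul_mul_comm, ← exp_add]
    congr 2
    simp [map_ofNat]
    ring
  rw [sh, rd_pj h.1 h.2]
  simp only [pj, s6, nq, e, map_mul normSq, n, n', one_mul, mul_re (exp _), mul_im (exp _),
    exp_ofReal_mul_I_re, exp_ofReal_mul_I_im]
  exact Prod.ext rfl (Prod.ext (by simp only; ring) (Prod.ext (by simp only; ring) rfl))

theorem rp6 (h : |a| < M) {r : ℝ} (hr : 6 * M ≤ r) : P354I.rp M a < r := by
  obtain ⟨h0, -, -, h3, -⟩ := hor h
  linarith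

theorem th_d (h : |a| < M) (t : IsTh M M a A B) {r : ℝ} (hr : 6 * M ≤ r) :
    HasDerivAt (fun r => A r - 4 * M ^ 2 / r) (2 * (r ^ 2 + a ^ 2) / Del M a r - 1) r ∧
      HasDerivAt B (2 * a / Del M a r) r := by
  have m := (hor h).1
  have c : P354Z.cut M (M, a, r) = 1 := by
    simp only [P354Z.cut, P354XT.dn, P354XT.up]
    rw [Real.smoothTransition.one_of_one_le (by rw [le_div_iff₀ (by linarith)]; linarith),
      Real.smoothTransition.zero_of_nonpos (div_nonpos_of_nonpos_of_nonneg (by linarith)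
        (by linarith))]
    norm_num
  have r0 : r ≠ 0 := (show 0 < r by linarith).ne'
  refine ⟨((t r).1.sub ((hasDerivAt_const r (4 * M ^ 2)).div (hasDerivAt_id r) r0)).congr_deriv ?_,
    (t r).2.congr_deriv ?_⟩
  · simp only [hs, c, P354BF.De, Del, id]
    ring
  · simp only [js, c, P354BF.De, Del]
    ring

theorem pre : PRE := fun M a A B hA hB => by
  have q : ∀ r > 0, ContDiffAt ℝ ∞ (fun r : ℝ => 4 * M ^ 2 / r) r := fun r h =>
    contDiffAt_const.div contDiffAt_id h.ne'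
  have c2 : Cht P6 (ph M A B) :=
    ph_eq M A B ▸ s6_cht (fun r h => hA.contDiffAt.sub (q r h)) fun _ _ => hB.contDiffAt
  refine ⟨s6_cht (fun _ _ => hA.contDiffAt) fun _ _ => hB.contDiffAt, c2,
    hp_eq M A B ▸ s6_cht (fun r h => (q r h).sub hA.contDiffAt) fun _ _ => hB.neg.contDiffAt,
    ph_eq M A B ▸ fun _ h => s6_mem h, hp_eq M A B ▸ fun _ h => s6_mem h, fun x =>
      ⟨s6_s6 (by simp) (by simp), s6_s6 (by simp) (by simp), ?_, ?_⟩, fun _ => pj_s6,
    fun h t => ⟨⟨4 * M ^ 2 / (6 * M) + 6 * M + 2 * tb M a (6 * M) - A (6 * M), fun r hr => ?_⟩,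
      fun x hx hr => ?_⟩⟩
  · rw [ph_eq, hp_eq]
    exact s6_s6 (by simp) (by simp)
  · rw [ph_eq, hp_eq]
    exact s6_s6 (by simp) (by simp)
  · have d : ∀ s, 6 * M ≤ s → HasDerivAt (fun s => A s - 4 * M ^ 2 / s - s - 2 * tb M a s) 0 s :=
      fun s hs => by
        have := (Del_pos h (rp6 h hs)).ne'
        refine ((((th_d h t hs).1.sub (hasDerivAt_id s)).sub
          ((tb_d h (rp6 h hs)).const_mul 2)).congr_deriv ?_)
        rw [qm]
        field_simp
        rw [Del]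
        ring
    have := constant_of_has_deriv_right_zero (a := 6 * M) (b := r)
      (fun s k => (d s k.1).continuousAt.continuousWithinAt)
      (fun s k => (d s k.1).hasDerivWithinAt) r ⟨hr, le_rfl⟩
    linarith
  · have D := (((cd_pj (c2.eqv.ne x hx)).comp x (c2.eqv.sm x hx)).differentiableAt
      (by simp)).hasFDerivAt
    have e : rd (pj (ph M A B x)) = x.2.1 := rd_pj (c2.pos x hx) (c2.eqv.ne x hx)
    obtain ⟨d1, d2⟩ := th_d h t hr
    have r0 : x.2.1 ≠ 0 := ne_of_gt hx.1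
    refine ⟨(D.hasLineDerivAt er).unique ?_, (D.hasLineDerivAt (1, 0)).unique ?_, fun k n => ?_⟩
    · have s1 : HasDerivAt (fun s : ℝ => x.2.1 + s) 1 0 := (hasDerivAt_id (0 : ℝ)).const_add _
      have b := HasDerivAt.comp_of_eq 0 d2 s1 (by simp)
      have ev : ∀ᶠ s : ℝ in 𝓝 0, x + s • er ∈ P6 :=
        (show Continuous fun s : ℝ => x + s • er by fun_prop).continuousAt.eventually
          (c2.eqv.op.mem_nhds (by simpa using hx))
      have w : ∀ c : ℝ, HasDerivAt (fun s : ℝ => (x.2.1 + s) * c) c 0 := fun c => by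
        simpa using s1.mul_const c
      refine ((((HasDerivAt.comp_of_eq 0 d1 s1 (by simp)).const_add x.1).prodMk
        (((b.cos.mul (w (2 * (starRingEnd ℂ x.2.2.1 * x.2.2.2).re / nq x))).sub
          (b.sin.mul (w (2 * (starRingEnd ℂ x.2.2.1 * x.2.2.2).im / nq x)))).prodMk
        (((b.sin.mul (w (2 * (starRingEnd ℂ x.2.2.1 * x.2.2.2).re / nq x))).add
          (b.cos.mul (w (2 * (starRingEnd ℂ x.2.2.1 * x.2.2.2).im / nq x)))).prodMk
        (w ((normSq x.2.2.1 - normSq x.2.2.2) / nq x))))).congr_deriv ?_).congr_of_eventuallyEq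
          (ev.mono fun s hs => ?_)
      · rw [Lo, e, ph_eq, pj_s6 hx, sh, rd_pj hx.1 hx.2]
        simp only [pj, P354XE.Om, Function.comp, add_zero, Matrix.cons_val, Prod.smul_mk,
          Prod.mk_add_mk, smul_eq_mul, Prod.mk.injEq]
        refine ⟨?_, ?_, ?_, ?_⟩ <;> field_simp <;> ring
      · simp only [Function.comp]
        rw [ph_eq, pj_s6 hs, sh, rd_pj (x := x + s • er) hs.1 hs.2]
        simp [pj, er, nq]
    · have : ∀ s : ℝ, (pj ∘ ph M A B) (x + s • ((1 : ℝ), 0)) =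
          pj (ph M A B x) + s • P354XE.eT := fun s => by
        simp only [Function.comp, ph_eq, pj, s6, nq, P354XE.eT]
        simp
        ring
      simp only [HasLineDerivAt, this]
      simpa using ((hasDerivAt_id (0 : ℝ)).smul_const P354XE.eT).const_add (pj (ph M A B x))
    · have := n _ hr
      rw [ur, e, ph_eq]
      simp only [pj, s6, this, P354YT.tb]
      ring

end Vale.Agent.P354CS
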