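import Vale.Agent.P354C.Defs
import Vale.Agent.P354HL.Smooth

open scoped ContDiff
open Set

namespace Vale.Agent.P354CS

open Vale.Agent.P354C Vale.Agent.P354H
open Vale.Agent.P354n (R4)

/-- The space of the rescaled unknowns. -/
abbrev V : Type := EuclideanSpace ℝ Ix

section
variable {ι κ G : Type} [Fintype ι] [Fintype κ] [NormedAddCommGroup G] [NormedSpace ℝ G]

/-- The sum of c * u j * w k over a table. -/
def tab (L : List (ℤ × ι × κ)) (u : ι → ℝ) (w : κ → ℝ) : ℝ :=
  (L.map fun t => (t.1 : ℝ) * (u t.2.1 * w t.2.2)).sum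

/-- The sum of the absolute values of the coefficients of a table. -/
def wt (L : List (ℤ × ι × κ)) : ℕ := (L.map fun t => t.1.natAbs).sum

/-- The table sum times a vector as a bilinear map. -/
noncomputable def bil (v : G) : List (ℤ × ι × κ) → (ι → ℝ) →L[ℝ] (κ → ℝ) →L[ℝ] G
  | [] => 0
  | t :: L => (t.1 : ℝ) • (ContinuousLinearMap.proj (R := ℝ) (φ := fun _ : ι => ℝ) t.2.1).smulRight
      ((ContinuousLinearMap.proj (R := ℝ) (φ := fun _ : κ => ℝ) t.2.2).smulRight v) + bil v L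

omit [Fintype ι] [Fintype κ] in
theorem bil_ap (v : G) (L : List (ℤ × ι × κ)) (u : ι → ℝ) (w : κ → ℝ) :
    bil v L u w = tab L u w • v := by
  induction L with
  | nil => simp [bil, tab]
  | cons t L ih =>
    simp only [bil, add_apply, ih, tab, List.map_cons, List.sum_cons, add_smul]
    simp [smul_smul, mul_assoc]

theorem tab_le (L : List (ℤ × ι × κ)) (u : ι → ℝ) (w : κ → ℝ) :
    |tab L u w| ≤ wt L * (‖u‖ * ‖w‖) := by
  induction L with
  | nil => simp [tab, wt]
  | cons t L ih =>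
    simp only [tab, wt, List.map_cons, List.sum_cons, Nat.cast_add, add_mul] at ih ⊢
    refine (abs_add_le _ _).trans (add_le_add ?_ ih)
    rw [abs_mul, abs_mul, Nat.cast_natAbs, Int.cast_abs]
    exact mul_le_mul_of_nonneg_left (mul_le_mul (norm_le_pi_norm u _) (norm_le_pi_norm w _)
      (abs_nonneg _) (norm_nonneg _)) (abs_nonneg _)

omit [Fintype ι] [Fintype κ] in
theorem tab_append (L M : List (ℤ × ι × κ)) (u : ι → ℝ) (w : κ → ℝ) :
    tab (L ++ M) u w = tab L u w + tab M u w := by simp [tab]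

end

theorem sc_sq (i : Ix) : sc i ^ 2 = ((cN i + cL i : ℤ) : ℝ) :=
  Real.sq_sqrt (by exact_mod_cast (show 0 ≤ cN i + cL i by cases i <;> decide))

theorem one_le_sc (i : Ix) : 1 ≤ sc i :=
  Real.one_le_sqrt.2 (by exact_mod_cast (show 1 ≤ cN i + cL i by cases i <;> decide))

theorem sc_pos (i : Ix) : 0 < sc i := one_pos.trans_le (one_le_sc i)

/-- The map with components -(sc i)⁻¹ times the table sums. -/
@[irreducible] noncomputable def B {ι κ : Type} [Fintype ι] [Fintype κ] (T : Ix → List (ℤ × ι × κ)) :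
    (ι → ℝ) →L[ℝ] (κ → ℝ) →L[ℝ] V :=
  ∑ i, bil (EuclideanSpace.single i (-(sc i)⁻¹)) (T i)

theorem B_ap {ι κ : Type} [Fintype ι] [Fintype κ] (T : Ix → List (ℤ × ι × κ)) (u : ι → ℝ)
    (w : κ → ℝ) (i : Ix) : B T u w i = -(sc i)⁻¹ * tab (T i) u w := by
  simp [B, bil_ap, Pi.single_apply, mul_comm]

theorem B_le {ι κ : Type} [Fintype ι] [Fintype κ] (T : Ix → List (ℤ × ι × κ)) (N : ℕ)
    (h : ∀ i, wt (T i) ≤ N) : ‖B T‖ ≤ 38 * N := by
  refine ContinuousLinearMap.opNorm_le_bound₂ _ (by positivity) fun u w => ?_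
  simp only [B, sum_apply, bil_ap]
  have c : (Finset.univ : Finset Ix).card = 38 := by decide
  have k : ∀ i ∈ (Finset.univ : Finset Ix), ‖tab (T i) u w • EuclideanSpace.single i (-(sc i)⁻¹)‖ ≤
      N * (‖u‖ * ‖w‖) := fun i _ => by
    rw [norm_smul, Real.norm_eq_abs, PiLp.norm_single, norm_neg, norm_inv,
      Real.norm_of_nonneg (sc_pos i).le]
    exact (mul_le_of_le_one_right (abs_nonneg _) (inv_le_one_of_one_le₀ (one_le_sc i))).trans
      ((tab_le _ _ _).trans (mul_le_mul_of_nonneg_right (by exact_mod_cast h i) (by positivity)))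
  have k2 := Finset.sum_le_card_nsmul _ _ _ k
  rw [c, nsmul_eq_mul] at k2
  have k3 := norm_sum_le Finset.univ
    fun i => tab (T i) u w • (EuclideanSpace.single i (-(sc i)⁻¹) : V)
  push_cast at k2
  linarith

/-- The tables of the principal, linear and quadratic terms of the reduced system. -/
def PT (i : Ix) : List (ℤ × Fin 4 × Ix) :=
  [(cN i, 1, i), (cL i, 0, i)] ++ (angN i ++ angL i).map fun t => (t.1, ai t.2.1, t.2.2)
def LT (i : Ix) : List (ℤ × Unit × Ix) := (linN i ++ linL i).map fun t => (t.1, (), t.2)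
def QT (i : Ix) : List (ℤ × Ix × Ix) := quadN i ++ quadL i

theorem B1_le : ‖B PT‖ ≤ 38 * (6 : ℕ) := B_le _ _ fun i => by cases i <;> decide
theorem B0_le : ‖B LT‖ ≤ 38 * (4 : ℕ) := B_le _ _ fun i => by cases i <;> decide
theorem B2_le : ‖B QT‖ ≤ 38 * (70 : ℕ) := B_le _ _ fun i => by cases i <;> decide

/-- The unknowns w / sc of a vector w. -/
noncomputable def Di : V →L[ℝ] (Ix → ℝ) :=
  ContinuousLinearMap.pi fun i => (sc i)⁻¹ • EuclideanSpace.proj i

theorem Di_ap (w : V) (i : Ix) : Di w i = w i / sc i := by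
  simp [Di, div_eq_inv_mul]

theorem Di_le : ‖Di‖ ≤ 1 := by
  refine ContinuousLinearMap.opNorm_le_bound _ zero_le_one fun w => ?_
  refine (pi_norm_le_iff_of_nonneg (by positivity)).2 fun i => ?_
  rw [Di_ap, norm_div, Real.norm_of_nonneg (sc_pos i).le, one_mul]
  exact (div_le_self (norm_nonneg _) (one_le_sc i)).trans (PiLp.norm_apply_le w i)

/-- The components of the frame in the direction mu: constant part and linear part. -/
def E0 (μ : Fin 4) (k : Fin 4) : ℝ := E (0 : Ix → ℝ) k μ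
noncomputable def EL (μ : Fin 4) : (Ix → ℝ) →L[ℝ] (Fin 4 → ℝ) :=
  ContinuousLinearMap.pi fun k => (![![0, 0, .proj Ix.b1, .proj Ix.b2], ![0, 0, 0, 0],
    ![0, 0, .proj Ix.P11, .proj Ix.P12], ![0, 0, .proj Ix.P21, .proj Ix.P22]] :
      Fin 4 → Fin 4 → (Ix → ℝ) →L[ℝ] ℝ) k μ

theorem E_eq (U : Ix → ℝ) (μ : Fin 4) : (fun k => E U k μ) = E0 μ + EL μ U := by
  funext k
  fin_cases k <;> fin_cases μ <;> simp [E, E0, EL]

theorem EL_zero (U : Ix → ℝ) : EL 0 U = 0 := by
  funext k
  fin_cases k <;> simp [EL]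

theorem E0_le (μ : Fin 4) : ‖E0 μ‖ ≤ 1 := by
  refine (pi_norm_le_iff_of_nonneg zero_le_one).2 fun k => ?_
  fin_cases k <;> fin_cases μ <;> simp [E, E0]

theorem EL_le (μ : Fin 4) : ‖EL μ‖ ≤ 1 := by
  refine ContinuousLinearMap.opNorm_le_bound _ zero_le_one fun w => ?_
  refine (pi_norm_le_iff_of_nonneg (by positivity)).2 fun k => ?_
  have h : ∀ i, |w i| ≤ ‖w‖ := fun i => norm_le_pi_norm w i
  fin_cases k <;> fin_cases μ <;> simp [EL, h]

theorem B1_time (w : V) : B PT (E0 0) (Di w) = -w := by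
  ext i
  have h := sc_sq i
  have h0 := (sc_pos i).ne'
  have e : ∀ L : List (ℤ × Fin 2 × Ix),
      tab (L.map fun t => (t.1, ai t.2.1, t.2.2)) (E0 0) (Di w) = 0 := fun L => by
    refine List.sum_eq_zero fun x hx => ?_
    simp only [List.map_map, List.mem_map] at hx
    obtain ⟨⟨c, a, j⟩, -, rfl⟩ := hx
    fin_cases a <;> simp [E0, E, ai]
  rw [B_ap, PT, tab_append, e]
  push_cast at h
  simp [tab, E0, E, Di_ap]
  field_simp
  linear_combination -(w i) * h

theorem sum_Ix (f : Ix → ℝ) : ∑ i, f i = (Ix.all.map f).sum :=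
  List.sum_toFinset f (by decide : Ix.all.Nodup)

theorem tab_symm (ε : Fin 4 → ℝ) (x y : Ix → ℝ) :
    ∑ i, y i * tab (PT i) ε x = ∑ i, x i * tab (PT i) ε y := by
  simp only [sum_Ix, Ix.all, PT, tab, cN, cL, angN, angL, ai, List.map_cons, List.map_nil,
    List.sum_cons, List.sum_nil, List.cons_append, List.nil_append, List.append_nil]
  push_cast
  ring

theorem inner_B1 (ε : Fin 4 → ℝ) (v w : V) :
    inner ℝ w (B PT ε (Di v)) = -∑ i, Di w i * tab (PT i) ε (Di v) := by
  rw [PiLp.inner_apply, ← Finset.sum_neg_distrib]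
  refine Finset.sum_congr rfl fun i _ => ?_
  simp only [B_ap, Di_ap, RCLike.inner_apply, conj_trivial]
  ring

theorem sym_B1 (ε : Fin 4 → ℝ) : Sym ((B PT ε).comp Di) := fun v w => by
  rw [real_inner_comm]
  simp only [ContinuousLinearMap.comp_apply, inner_B1]
  rw [tab_symm]

/-- The coordinate vectors of R4. -/
def bas : Fin 4 → R4 := ![(1, 0), (0, e 0), (0, e 1), (0, e 2)]

theorem vec_eq (c : Fin 4 → ℝ) : vec c = ∑ μ, c μ • bas μ := by
  simp [vec, bas, e, Fin.sum_univ_four]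

/-- The left side of the system, rescaled, from the values and the coordinate derivatives. -/
noncomputable def Res (U : Ix → ℝ) (D : Fin 4 → Ix → ℝ) : V :=
  ∑ μ, B PT (E0 μ + EL μ U) (D μ) + B LT 1 U + B QT U U

theorem Res_ap (U : Ix → ℝ) (D : Fin 4 → Ix → ℝ) (i : Ix) :
    Res U D i = -(sc i)⁻¹ * res U (fun k j => ∑ μ, E U k μ * D μ j) i := by
  have e : ∀ L : List (ℤ × Fin 2 × Ix), ∑ μ, tab (L.map fun t => (t.1, ai t.2.1, t.2.2))
      (fun k => E U k μ) (D μ) = angS (fun k j => ∑ μ, E U k μ * D μ j) L := fun L => by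
    induction L with
    | nil => simp [tab, angS]
    | cons t L ih =>
      simp only [tab, angS, List.map_cons, List.sum_cons, Finset.sum_add_distrib] at ih ⊢
      rw [ih, Finset.mul_sum]
  have e1 : ∀ L : List (ℤ × Ix), tab (L.map fun t => (t.1, (), t.2)) 1 U = linS U L := fun L => by
    simp [tab, linS, Function.comp_def]
  have e2 : ∀ L M, tab (L ++ M) U U = quadS U L + quadS U M := fun L M => tab_append L M U U
  simp only [Res, ← E_eq, PiLp.add_apply, WithLp.ofLp_sum, Finset.sum_apply, B_ap, ← Finset.mul_sum,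
    PT, LT, QT, e2, List.map_append, tab_append, Finset.sum_add_distrib, e, e1, res, resN, resL]
  simp only [tab, List.map_cons, List.map_nil, List.sum_cons, List.sum_nil, add_zero,
    Finset.sum_add_distrib, ← Finset.mul_sum]
  ring

/-- The coordinate derivatives of U. -/
noncomputable def Dc (U : R4 → Ix → ℝ) (p : R4) (μ : Fin 4) (i : Ix) : ℝ :=
  fderiv ℝ (fun z => U z i) p (bas μ)

theorem dfr_eq (U : R4 → Ix → ℝ) (p : R4) :
    dfr U p = fun k j => ∑ μ, E (U p) k μ * Dc U p μ j := by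
  funext k j
  simp [dfr, fr, vec_eq, Dc]

theorem res_iff (U K : R4 → Ix → ℝ) (p : R4) :
    (∀ i, res (U p) (dfr U p) i = res (K p) (dfr K p) i) ↔
      Res (U p) (Dc U p) = Res (K p) (Dc K p) := by
  rw [dfr_eq, dfr_eq, PiLp.ext_iff]
  refine forall_congr' fun i => ?_
  rw [Res_ap, Res_ap, mul_right_inj' (neg_ne_zero.2 (inv_ne_zero (sc_pos i).ne'))]

/-- The difference of the left sides. -/
theorem Res_add (K : Ix → ℝ) (DK : Fin 4 → Ix → ℝ) (w : V) (dw : Fin 4 → V) :
    Res (K + Di w) (fun μ => DK μ + Di (dw μ)) = Res K DK + (-dw 0 +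
      ∑ j : Fin 3, B PT (E0 j.succ + EL j.succ (K + Di w)) (Di (dw j.succ)) +
      (∑ j : Fin 3, B PT (EL j.succ (Di w)) (DK j.succ) + B LT 1 (Di w) + B QT K (Di w) +
        B QT (Di w) K + B QT (Di w) (Di w))) := by
  simp only [Res, Fin.sum_univ_succ (n := 3), EL_zero, map_add, add_apply,
    B1_time, Finset.sum_add_distrib, add_zero, map_zero, zero_apply]
  abel

end Vale.Agent.P354CS
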