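import Vale.Agent.P354YN.Frame

/-!
The natural field z in a transverse null frame of arbitrary orientation.
-/

set_option linter.all false
set_option maxSynthPendingDepth 3

open scoped ContDiff
open Set Filter Topology Matrix Complex

noncomputable section

namespace Vale.Agent.P354CS

open Vale.Agent.P354n (R4)
open Vale.Agent.P354RC (bs cv Gm Rm at_df sum_bs fd_ap Gm_add2 Gm_smul2)
open Vale.Agent.P354XD (tb rp_tb gc Gc db VacAt dC_eq tb_bs)
open Vale.Agent.P354XE (Tw)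
open Vale.Agent.P354XV (jet Lv)
open Vale.Agent.P354YN

theorem R_val {g : Tw} {y : R4} (v : VacAt g y) (a b c e : Fin 4) :
    ∑ d, gc g d e y * (db a (Gc g b c d) y - db b (Gc g a c d) y +
      ∑ f, (Gc g b c f y * Gc g a f d y - Gc g a c f y * Gc g b f d y)) =
      Rm (tb g) y (bs a) (bs b) (bs c) (bs e) := by
  obtain ⟨D, h1, h2, h3, -⟩ := v
  have r := rp_tb h1 h3
  have e0 : ∀ u, tb g y u (bs e) = ∑ d, gc g d e y * cv d u := fun u => by
    conv_lhs => rw [← sum_bs u]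
    simp only [map_sum, map_smul, ContinuousLinearMap.sum_apply, ContinuousLinearMap.smul_apply,
      smul_eq_mul, tb_bs, gc, mul_comm]
  have e1 : ∀ i j k d, db i (Gc g j k d) y =
      cv d (fderiv ℝ (fun z => Gm (tb g) z (bs j) (bs k)) y (bs i)) := fun i j k d => by
    have := fd_ap (contDiffAt_const (c := cv d))
      (r.gm_cd h2 (contDiffAt_const (c := bs j)) (contDiffAt_const (c := bs k))) (bs i)
    exact this.trans (by simp)
  have e2 : ∀ i u d, cv d (Gm (tb g) y (bs i) u) = ∑ f, cv f u * Gc g i f d y := fun i u d => by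
    conv_lhs => rw [← sum_bs u]
    simp only [Fin.sum_univ_four, Gm_add2, Gm_smul2, map_add, map_smul, smul_eq_mul, Gc]
  rw [Rm, dC_eq r h2, dC_eq r h2, e0 (_ + _), e0 (_ + _)]
  simp only [map_add, e1, e2 a (Gm _ y (bs b) (bs c)), e2 b (Gm _ y (bs a) (bs c)),
    Finset.sum_sub_distrib, mul_add, mul_sub, Finset.sum_add_distrib]
  simp only [Gc]
  ring

/-- A null frame without orientation. -/
structure N0 (G : M4) (l n s : C4) : Prop where
  rl : star l = l
  rn : star n = n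
  ll : gm G l l = 0
  nn : gm G n n = 0
  ss : gm G s s = 0
  ln : gm G l n = -1
  ls : gm G l s = 0
  ns : gm G n s = 0
  sb : gm G s (star s) = 1

section
variable {G h : M4} {u : ℝ} {R : M6} {l n s : C4} (N : N0 G l n s)
include N

theorem N0.nf (o : 0 < (fr l n s).det.im) : NF G l n s :=
  ⟨N.rl, N.rn, N.ll, N.nn, N.ss, N.ln, N.ls, N.ns, N.sb, o⟩

theorem N0.cj (P : Pt G h u R) : N0 G l n (star s) :=
  ⟨N.rl, N.rn, N.ll, N.nn, by rw [← P.star_gm, N.ss, star_zero], N.ln,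
    by rw [← N.rl, ← P.star_gm, N.ls, star_zero], by rw [← N.rn, ← P.star_gm, N.ns, star_zero],
    by rw [star_star, P.comm, N.sb]⟩

omit N in
theorem det_cj (l n s : C4) : (fr l n (star s)).det = -(fr l n s).det := by
  simp only [det4, frv, star_star]
  ring

theorem N0.im (P : Pt G h u R) : (fr l n s).det.im ≠ 0 := fun o => by
  have C := N.cj P
  have e : ∀ i j, (fr l n s * G * (fr l n s)ᵀ) i j = gm G (fr l n s i) (fr l n s j) := fun i j => by
    simp only [gm, mul_apply, transpose_apply, dotProduct, mulVec, Fin.sum_univ_four]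
    ring
  have g : fr l n s * G * (fr l n s)ᵀ = P354YN.eta := by
    refine Matrix.ext ?_
    simp only [all4, e, frv, P.comm n l, P.comm s l, P.comm (star s) l, P.comm s n,
      P.comm (star s) n, P.comm (star s) s, N.ll, N.nn, N.ss, N.ln, N.ls, N.ns, N.sb, C.ss, C.ls,
      C.ns]
    simp [P354YN.eta]
  have k : star (fr l n s).det = -(fr l n s).det := by
    simp only [det4, frv, star_sub, star_add, star_mul', Pi.star_apply, star_star,
      show ∀ i, star (l i) = l i from congrFun N.rl, show ∀ i, star (n i) = n i from congrFun N.rn]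
    ring
  have z : (fr l n s).det = 0 := Complex.ext (by
    have := congrArg re k
    simp only [star_def, conj_re, neg_re] at this
    simp only [zero_re]
    linarith) o
  have := congrArg det g
  rw [det_mul, det_mul, z, det4 P354YN.eta] at this
  simp [P354YN.eta] at this

end

theorem rc_star (g : Tw) (p : R4) (a b c d : C4) :
    star (rc (R6 g p) a b c d) = rc (R6 g p) (star a) (star b) (star c) (star d) := by
  simp only [rc, wg, dotProduct, mulVec, star_sum, star_mul', star_sub, R6, Pi.star_apply,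
    RCLike.star_def, conj_ofReal]

/-- The simple eigenvalue as a function. -/
def Lap (g : Tw) (p : R4) : ℂ := lam (WJ (jet 2 g p))

section
variable {m : ℝ} {g : Tw} {D : Set R4} {p w : R4} (v : Lv g D) (hp : p ∈ D)
include v hp

theorem la_cd (u : (m, jet 2 g p) ∈ U2) : ContDiffAt ℝ ∞ (Lap g) p := by
  have := MS.la (W := fun y => WJ (jet 2 g y)) (SA.wj (jet_cd v hp 2) u.2.1.ne)
    (by simpa only using u2_ok u)
  unfold Lap
  exact this

theorem dY (u : (m, jet 2 g p) ∈ U2) (x : R4) :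
    fderiv ℝ (YN m g) p x = -(YN m g p / (3 * Lap g p)) * fderiv ℝ (Lap g) p x := by
  have l0 : Lap g p ≠ 0 := (u2_ok u).l
  have s : -2 * (m : ℂ) / Lap g p ∈ slitPlane := u.2.2.2.2.2
  have d := (((hasDerivAt_const (Lap g p) (-2 * (m : ℂ))).div (hasDerivAt_id _) l0).cpow_const
    (c := 1 / 3) s).hasFDerivAt.restrictScalars ℝ
  have := congrArg (fun A : R4 →L[ℝ] ℂ => A x) (d.comp p (at_df (la_cd v hp u)).hasFDerivAt).fderiv
  refine this.trans ?_
  have m0 : (m : ℂ) ≠ 0 := ofReal_ne_zero.2 u.1.ne'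
  simp only [ContinuousLinearMap.comp_apply, ContinuousLinearMap.coe_restrictScalars',
    ContinuousLinearMap.toSpanSingleton_apply, smul_eq_mul, Pi.div_apply, id,
    cpow_sub _ _ (slitPlane_ne_zero s), cpow_one]
  rw [show YN m g p = (-2 * (m : ℂ) / Lap g p) ^ (1 / 3 : ℂ) from rfl]
  field_simp
  ring

theorem zn_tf (a : Ad m g w p) {l n s : C4} (N : NF (GG g p) l n s) (h1 : y1 (R6 g p) l n s = 0)
    (h3 : y3 (R6 g p) l n s = 0) (h2 : Lap g p = 2 * y2 (R6 g p) l n s) {k : C4}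
    (hk : k = fun a => fderiv ℝ (Lap g) p (bs a)) : ∃ ε : ℝ, (ε = 1 ∨ ε = -1) ∧ ∀ b,
      co (zN m g w p) b = ε * (YN m g p / (3 * Lap g p) *
        (n ⬝ᵥ k * l b - l ⬝ᵥ k * n b - star s ⬝ᵥ k * s b + s ⬝ᵥ k * star s b)).re := by
  have u : (m, jet 2 g p) ∈ U2 := a.1
  have P := pt_at v hp
  have e : ∀ x, dC (YN m g) p x = -(YN m g p / (3 * Lap g p)) * (x ⬝ᵥ k) := fun x => by
    simp only [dC, dY v hp u, hk, dotProduct, Finset.mul_sum, mul_left_comm]
  obtain ⟨l, rfl⟩ : ∃ x, cV x = l := ⟨_, cV_rV N.rl⟩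
  obtain ⟨n, rfl⟩ : ∃ x, cV x = n := ⟨_, cV_rV N.rn⟩
  have o := sq_slit.1 ((q_Ze v hp u N h1 h3 h2 w).1 ▸ a.2.1)
  rw [re_zq v hp u] at o
  rcases (sub_ne_zero.1 o).lt_or_gt with o | o
  · refine ⟨-1, .inr rfl, fun b => ?_⟩
    rw [(flds v hp u (P.swap N) (by rw [y1, ← rc_anti]; exact h3)
      (by rw [y3, star_star, rc_anti]; exact h1) (by rw [y2, star_star, P.pair]; exact h2)
      w o).2.2.2.2, co_vc, neg_one_mul, ← neg_re]
    simp only [rV, e, star_star, Pi.add_apply, Pi.sub_apply, Pi.neg_apply, Pi.smul_apply,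
      smul_eq_mul]
    exact congrArg re (by ring)
  · refine ⟨1, .inl rfl, fun b => ?_⟩
    rw [(flds v hp u N h1 h3 h2 w o).2.2.2.2, co_vc, one_mul]
    simp only [rV, e, Pi.add_apply, Pi.sub_apply, Pi.neg_apply, Pi.smul_apply, smul_eq_mul]
    exact congrArg re (by ring)

/-- The formula for the other orientation. -/
theorem zn_cj (a : Ad m g w p) {l n s : C4} (N : NF (GG g p) l n (star s))
    (h1 : y1 (R6 g p) l n (star s) = 0) (h3 : y3 (R6 g p) l n (star s) = 0)
    (h2 : Lap g p = 2 * y2 (R6 g p) l n (star s)) {k : C4}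
    (hk : k = fun a => star (fderiv ℝ (Lap g) p (bs a))) : ∃ ε : ℝ, (ε = 1 ∨ ε = -1) ∧ ∀ b,
      co (zN m g w p) b = ε * ((-2 * m / star (Lap g p)) ^ (1 / 3 : ℂ) / (3 * star (Lap g p)) *
        (n ⬝ᵥ k * l b - l ⬝ᵥ k * n b - star s ⬝ᵥ k * s b + s ⬝ᵥ k * star s b)).re := by
  obtain ⟨ε, h, e⟩ := zn_tf v hp a N h1 h3 h2 rfl
  refine ⟨ε, h, fun b => ?_⟩
  have s0 : -2 * (m : ℂ) / Lap g p ∈ slitPlane := a.1.2.2.2.2.2
  have y : star (YN m g p) = (-2 * m / star (Lap g p)) ^ (1 / 3 : ℂ) := by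
    have c := conj_cpow (-2 * (m : ℂ) / Lap g p) (1 / 3) (slitPlane_arg_ne_pi s0)
    simp only [map_div₀, map_mul, map_neg, map_ofNat, conj_ofReal, map_one] at c
    exact c.symm
  have d : ∀ x : C4, star (x ⬝ᵥ fun a => fderiv ℝ (Lap g) p (bs a)) = star x ⬝ᵥ k := fun x => by
    simp only [hk, dotProduct, star_sum, star_mul', Pi.star_apply]
  rw [e, ← conj_re, ← star_def]
  simp only [star_mul', star_div₀, star_add, star_sub, y, d, Pi.star_apply, N.rl, N.rn,
    star_star, star_ofNat, show star (l b) = l b from congrFun N.rl b,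
    show star (n b) = n b from congrFun N.rn b]

end

/-- The eigenvalue in a transverse frame. -/
theorem ex_la : ∃ δ > 0, ∀ g D p l n s, Lv g D → p ∈ D → NF (GG g p) l n s →
    y1 (R6 g p) l n s = 0 → y3 (R6 g p) l n s = 0 →
    ‖y0 (R6 g p) l s * y0 (R6 g p) n (star s)‖ < δ * ‖y2 (R6 g p) l n s‖ ^ 2 →
    Lap g p = 2 * y2 (R6 g p) l n s := by
  obtain ⟨δ, h, k⟩ := frm.2.1
  refine ⟨δ, h, fun g D p l n s v hp N h1 h3 o => ?_⟩
  obtain ⟨l, rfl⟩ : ∃ x, cV x = l := ⟨_, cV_rV N.rl⟩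
  obtain ⟨n, rfl⟩ : ∃ x, cV x = n := ⟨_, cV_rV N.rn⟩
  have q0 : y2 (R6 g p) (cV l) (cV n) s ≠ 0 := fun z => by
    rw [z, norm_zero, zero_pow two_ne_zero, mul_zero] at o
    exact (norm_nonneg _).not_gt o
  refine (k 0 g D p l n s _ _ v hp ((Tf.y v hp).2 ⟨N, h1, h3, rfl,
    (div_mul_cancel₀ _ (pow_ne_zero 2 q0)).symm⟩) ?_ q0).1
  rwa [norm_div, norm_pow, div_lt_iff₀ (by positivity)]

end Vale.Agent.P354CS
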