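import Vale.Agent.P354RN.Defs
import Vale.Agent.P354CS.Pta

/-!
PTB: the natural field z in a transverse null frame of a family.
-/

set_option linter.all false
set_option maxSynthPendingDepth 3

open scoped ContDiff
open Set Filter Topology Matrix Complex

noncomputable section

namespace Vale.Agent.P354CS

open Vale.Agent.P354n (R4)
open Vale.Agent.P354RC (bs cv sum_bs at_df)
open Vale.Agent.P354XG (E6 Sm Loc rep sl Vec Geo rep_sm)
open Vale.Agent.P354XD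
open Vale.Agent.P354XO (hz hz_ap rs_d vf_L)
open Vale.Agent.P354XE (Tw eT)
open Vale.Agent.P354XV (jet Lv)
open Vale.Agent.P354YN (C4 GG R6 gC RC gC_eq RC_eq y0 y1 y2 y3 fr rc rc_anti pt_at Ad gm_smul1
  gm_smul2 wg)

variable {J : Type} {G : Filter (J × E6)} [Loc G]

/-- The chain rule at the points of the filter. -/
theorem L_at (o : Off G) (u : Sm G) (a : Fin 4) : ∀ᶠ p in G, ∀ f : R4 → ℂ,
    DifferentiableAt ℝ f (pj p.2) → (sl (rep u) p.1 =ᶠ[𝓝 p.2] fun y => f (pj y)) →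
    rep ((hp G).L a u) p = fderiv ℝ f (pj p.2) (bs a) := by
  have r : ∀ u : Sm G, Rs ((hp G).L a u) fun p => ∑ i, rep ((hp G).L a ((hp G).z i)) p *
      (d1 i * fderiv ℝ (sl (rep u) p.1) p.2 (v1 i) + d2 i * fderiv ℝ (sl (rep u) p.1) p.2 (v2 i)) :=
    fun u => by
      have e : (hp G).L a u = ∑ i, (hp G).L a ((hp G).z i) * (hp G).d i u := by
        conv_lhs => rw [(vf_L a).eq_z]
        simp [Fin.sum_univ_six]
      rw [e]
      exact Rs.sum _ fun i => (rs_rep _).mul (rs_d i u)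
  have c : ∀ b, Rs ((hp G).L a ((hp G).co b)) fun _ => if a = b then 1 else 0 := fun b => by
    rw [(hp_is o).L_co]
    split_ifs
    exacts [rs_one, rs_zero]
  filter_upwards [o, r u, eventually_all.2 fun b => (r ((hp G).co b)).eq (c b),
    eventually_all.2 fun b => P354XG.sl_congr (rs_co o b)] with p h0 h1 h2 h3 f hf e
  have k := ((cd_pj h0.2).differentiableAt (by simp)).hasFDerivAt
  have k1 : fderiv ℝ (fun y => f (pj y)) p.2 = _ := (hf.hasFDerivAt.comp p.2 k).fderiv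
  have k2 : ∀ b, fderiv ℝ (sl (fun p : J × E6 => (cv b (pj p.2) : ℂ)) p.1) p.2 = _ := fun b =>
    (ofRealCLM.hasFDerivAt.comp p.2 ((cv b).hasFDerivAt.comp p.2 k)).fderiv
  have k3 : ∀ v, fderiv ℝ f (pj p.2) (fderiv ℝ pj p.2 v) =
      ∑ b, fderiv ℝ f (pj p.2) (bs b) * cv b (fderiv ℝ pj p.2 v) := fun v => by
    conv_lhs => rw [← sum_bs (fderiv ℝ pj p.2 v)]
    simp only [map_sum, map_smul, real_smul, mul_comm]
  simp only [(h3 _).fderiv_eq, k2, ContinuousLinearMap.comp_apply, ofRealCLM_apply] at h2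
  rw [h1, e.fderiv_eq, k1]
  simp only [ContinuousLinearMap.comp_apply, k3]
  calc _ = ∑ b, fderiv ℝ f (pj p.2) (bs b) * (if a = b then 1 else 0) := by
        simp only [← h2, Fin.sum_univ_four, Fin.sum_univ_six]
        ring
    _ = _ := by simp

theorem w_sum (k : ℂ) (γ : Fin 4 → Fin 4 → ℂ) (T : Fin 4 → Fin 4 → Fin 4 → Fin 4 → ℂ) (X Y Z U : C4) :
    ∑ d, ∑ e, k * γ d e * (∑ a, ∑ b, ∑ c, T a b c d * X a * Y b * Z c) * U e =
      k * ∑ a, ∑ b, ∑ c, ∑ e, (∑ d, γ d e * T a b c d) * X a * Y b * Z c * U e := by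
  have : ∀ F : Fin 4 → Fin 4 → Fin 4 → ℂ, ∑ a, ∑ b, ∑ c, F a b c =
      ∑ x : Fin 4 × Fin 4 × Fin 4, F x.1 x.2.1 x.2.2 := fun F => by
    simp only [Fintype.sum_prod_type]
  rw [this]
  simp only [this fun a b c => T a b c _ * X a * Y b * Z c, Finset.mul_sum, Finset.sum_mul]
  rw [Finset.sum_comm, Finset.sum_congr rfl fun _ _ => Finset.sum_comm, Finset.sum_comm]
  exact Finset.sum_congr rfl fun _ _ => Finset.sum_congr rfl fun _ _ =>
    Finset.sum_congr rfl fun _ _ => by ring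

/-- The values of a vector. -/
def vl (X : Vec (Sm G)) (p : J × E6) : C4 := fun a => rep (X a) p

variable {g : J → Tw} (o : Off G) (hg : ∀ᶠ p in G, VacAt (g p.1) (pj p.2))
include o hg

theorem rs_g (a b : Fin 4) :
    Rs ((geo G (1 / 2) g).g a b) fun p => ((1 / 2 : ℝ) : ℂ) * (gc (g p.1) a b (pj p.2) : ℂ) :=
  (rs_alg _).mul (rs_pb o (f := fun j => gc (g j) a b) (hg.mono fun _ v => v.sm_g a b))

theorem rs_dt (X Y : Vec (Sm G)) : Rs ((geo G (1 / 2) g).dot X Y) fun p =>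
    P354YN.gm (GG (g p.1) (pj p.2)) (vl X p) (vl Y p) / 2 :=
  (Rs.sum _ fun a => Rs.sum _ fun b => ((rs_g o hg a b).mul (rs_rep _)).mul (rs_rep _)).congr
    (.of_forall fun p => by
      simp only [← gC_eq, gC, gc, vl, Finset.sum_div]
      exact Finset.sum_congr rfl fun _ _ => Finset.sum_congr rfl fun _ _ => by push_cast; ring)

theorem rs_W (X Y Z U : Vec (Sm G)) : Rs ((geo G (1 / 2) g).W X Y Z U) fun p =>
    RC (g p.1) (pj p.2) (vl X p) (vl Y p) (vl Z p) (vl U p) / 2 := by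
  have s2 : ∀ a b d, SmB G fun j => Gc (g j) a b d := fun a b d => hg.mono fun _ v => v.sm_G a b d
  have r2 := fun a b d => rs_pb o (s2 a b d)
  have r : ∀ a b c d, Rs ((geo G (1 / 2) g).R a b c d) fun p =>
      ((db a (Gc (g p.1) b c d) (pj p.2) - db b (Gc (g p.1) a c d) (pj p.2) +
        ∑ f, (Gc (g p.1) b c f (pj p.2) * Gc (g p.1) a f d (pj p.2) -
          Gc (g p.1) a c f (pj p.2) * Gc (g p.1) b f d (pj p.2)) : ℝ) : ℂ) := fun a b c d => by
    simp only [Geo.R, geo, Hp.geo, L_pb o (s2 _ _ _)]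
    exact (((rs_pb o ((s2 b c d).db a)).sub (rs_pb o ((s2 a c d).db b))).add
      (Rs.sum Finset.univ fun f => ((r2 b c f).mul (r2 a f d)).sub
        ((r2 a c f).mul (r2 b f d)))).congr (.of_forall fun p => by push_cast; rfl)
  refine (Rs.sum _ fun d => Rs.sum _ fun e => ((rs_g o hg d e).mul
    (Rs.sum _ fun a => Rs.sum _ fun b => Rs.sum _ fun c => (((r a b c d).mul (rs_rep _)).mul
      (rs_rep _)).mul (rs_rep _))).mul (rs_rep _)).congr (hg.mono fun p v => ?_)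
  simp only [RC, ← R_val v, vl, ofReal_sum (s := Finset.univ) fun d => gc _ d _ _ * _, ofReal_mul]
  rw [w_sum]
  push_cast
  ring

omit o hg in
theorem rc_sm (R : P354YN.M6) (a b c d : ℂ) (u v s t : C4) :
    rc R (a • u) (b • v) (c • s) (d • t) = a * b * c * d * rc R u v s t := by
  have e : ∀ (a b : ℂ) (u v : C4), wg (a • u) (b • v) = (a * b) • wg u v := fun a b u v => by
    funext i
    simp only [wg, Pi.smul_apply, smul_eq_mul]
    ring
  simp only [rc, e, mulVec_smul, dotProduct_smul, smul_dotProduct, smul_eq_mul]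
  ring

/-- The frame at a point. -/
theorem fr_at {F : Fr (Sm G)} (N : F.Nl (geo G (1 / 2) g)) (h1 : F.p1 (geo G (1 / 2) g) = 0)
    (h3 : F.p3 (geo G (1 / 2) g) = 0) : ∀ᶠ p in G, ∀ D, Lv (g p.1) D → pj p.2 ∈ D → ∀ l n s,
      l = vl F.l p → n = (1 / 2 : ℂ) • vl F.n p → s = ((1 + I) / 2) • vl F.m p →
      star s = ((1 - I) / 2) • vl F.mb p ∧ N0 (GG (g p.1) (pj p.2)) l n s ∧
      y1 (R6 (g p.1) (pj p.2)) l n s = 0 ∧ y3 (R6 (g p.1) (pj p.2)) l n s = 0 ∧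
      2 * y2 (R6 (g p.1) (pj p.2)) l n s = rep (F.p2 (geo G (1 / 2) g)) p ∧
      4 * (y0 (R6 (g p.1) (pj p.2)) l s * y0 (R6 (g p.1) (pj p.2)) n (star s)) =
        rep (F.p0 (geo G (1 / 2) g)) p * rep (F.p4 (geo G (1 / 2) g)) p := by
  have c : ∀ {X Y : Vec (Sm G)}, (geo G (1 / 2) g).cv X = Y → ∀ᶠ p in G, star (vl X p) = vl Y p :=
    fun {X Y} e => (eventually_all.2 fun a =>
      ((rs_rep (X a)).cj.eq ((show P354XG.cj (X a) = Y a from congrFun e a).symm ▸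
        rs_rep (Y a)))).mono fun p k => funext k
  have d : ∀ {X Y : Vec (Sm G)} {z : ℂ}, Rs ((geo G (1 / 2) g).dot X Y) (fun _ => z) →
      ∀ᶠ p in G, P354YN.gm (GG (g p.1) (pj p.2)) (vl X p) (vl Y p) = 2 * z := fun {X Y z} e =>
    ((rs_dt o hg X Y).eq e).mono fun p k => by linear_combination 2 * k
  filter_upwards [c N.c_l, c N.c_n, c N.c_m, d (N.ll ▸ rs_zero), d (N.nn ▸ rs_zero),
    d (N.mm ▸ rs_zero), d (N.ln ▸ rs_one.neg), d (N.lm ▸ rs_zero), d (N.nm ▸ rs_zero),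
    d (N.mmb ▸ rs_one), (rs_W o hg F.l F.n F.l F.m).neg.eq (h1 ▸ rs_zero : Rs (F.p1 _) _),
    (rs_W o hg F.n F.l F.n F.mb).neg.eq (h3 ▸ rs_zero : Rs (F.p3 _) _),
    rs_W o hg F.n F.mb F.l F.m, (rs_W o hg F.l F.m F.l F.m).neg,
    (rs_W o hg F.n F.mb F.n F.mb).neg] with p a1 a2 a3 b1 b2 b3 b4 b5 b6 b7 w1 w3 w2 w0 w4 D v hp
    l n s el en es
  have e : star s = ((1 - I) / 2) • vl F.mb p := by
    rw [es, star_smul, a3]
    simp [sub_eq_add_neg]
  have c1 : (1 + I) / 2 * ((1 - I) / 2) = 1 / 2 := by linear_combination -I_mul_I / 4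
  rw [RC_eq v hp] at w0 w1 w2 w3 w4
  rw [← one_smul ℂ (vl F.l p)] at el
  refine ⟨e, ⟨by rw [el, one_smul, a1], by rw [en, star_smul, a2]; simp, ?_, ?_, ?_, ?_, ?_, ?_, ?_⟩,
    ?_, ?_, ?_, ?_⟩
  any_goals simp only [e, el, en]
  any_goals simp only [es, gm_smul1, gm_smul2, b1, b2, b3, b4, b5, b6, b7, mul_zero]
  · ring
  · linear_combination 2 * c1
  · rw [y1, rc_sm]
    linear_combination (1 + I) / 2 * w1
  · rw [y3, ← es, e, rc_anti, rc_sm]
    linear_combination (1 - I) / 4 * w3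
  · rw [y2, ← es, e, es, rc_sm, Fr.p2, w2]
    linear_combination rc (R6 (g p.1) (pj p.2)) (vl F.n p) (vl F.mb p) (vl F.l p) (vl F.m p) * c1
  · rw [y0, y0, rc_sm, rc_sm, Fr.p0, Fr.p4, w0, w4]
    linear_combination ((1 + I) / 2 * ((1 - I) / 2) + 1 / 2) *
      rc (R6 (g p.1) (pj p.2)) (vl F.l p) (vl F.m p) (vl F.l p) (vl F.m p) *
      rc (R6 (g p.1) (pj p.2)) (vl F.n p) (vl F.mb p) (vl F.n p) (vl F.mb p) * c1

omit o hg in
theorem ptb : P354RN.PTB := by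
  obtain ⟨δ, δ0, hδ⟩ := ex_la
  refine ⟨δ, δ0, fun J G _ M g F S hS po N h1 h3 H => ?_⟩
  subst hS
  have o := po.off
  have hg : ∀ᶠ p in G, VacAt (g p.1) (pj p.2) :=
    H.mono fun p ⟨⟨D, v, hp⟩, _⟩ => ⟨D, v.isOpen, hp, v.met, v.vac⟩
  have z : ∀ X : Vec (Sm G), Rs (hz X (F.p2 (geo G (1 / 2) g))) fun p =>
      vl X p ⬝ᵥ fun a => rep ((hp G).L a (F.p2 (geo G (1 / 2) g))) p := fun X => by
    rw [hz_ap]
    exact Rs.sum _ fun a => (rs_rep _).mul (rs_rep _)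
  have sm : ∀ X : Vec (Sm G), ∀ᶠ p in G, ContinuousAt (fun y => vl X (p.1, y)) p.2 := fun X =>
    (eventually_all.2 fun a => rep_sm (X a)).mono fun p k =>
      continuousAt_pi.2 fun a => (k a).continuousAt
  filter_upwards [Loc.ev _ (H.and (fr_at o hg N h1 h3)), sm F.l, sm F.n, sm F.m,
    eventually_all.2 fun a => L_at o (F.p2 (geo G (1 / 2) g)) a, eventually_all.2 fun b =>
      ((((z F.n).mul (rs_rep (F.l b))).sub ((z F.l).mul (rs_rep (F.n b)))).sub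
        ((z F.mb).mul (rs_rep (F.m b)))).add ((z F.m).mul (rs_rep (F.mb b)))] with p K s1 s2 s3 L Z
  obtain ⟨⟨⟨D, v, hp⟩, a, -⟩, k⟩ := K.self_of_nhds
  obtain ⟨e, N, k1, k3, k2, -⟩ := k D v hp _ _ _ rfl rfl rfl
  have P := pt_at v hp
  have df := at_df (la_cd v hp a.1)
  have ct : ContinuousAt (fun y => (fr (vl F.l (p.1, y)) ((1 / 2 : ℂ) • vl F.n (p.1, y))
      (((1 + I) / 2) • vl F.m (p.1, y))).det.im) p.2 := by
    refine continuous_im.continuousAt.comp ((continuous_id.matrix_det).continuousAt.comp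
      (continuousAt_pi.2 ?_))
    exact P354YN.all4.2 ⟨s1, s2.const_smul _, s3.const_smul _, (s3.const_smul ((1 + I) / 2)).star⟩
  have c1 : (1 + I) / 2 * ((1 - I) / 2) = 1 / 2 := by linear_combination -I_mul_I / 4
  have fin : ∀ (k : C4) (c : ℂ) b, (fun a => rep ((P354XD.hp G).L a (F.p2 (geo G (1 / 2) g))) p) = k →
      c / (3 * rep (F.p2 (geo G (1 / 2) g)) p) * (((1 / 2 : ℂ) • vl F.n p) ⬝ᵥ k * vl F.l p b -
        vl F.l p ⬝ᵥ k * ((1 / 2 : ℂ) • vl F.n p) b - star (((1 + I) / 2) • vl F.m p) ⬝ᵥ k *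
        (((1 + I) / 2) • vl F.m p) b + (((1 + I) / 2) • vl F.m p) ⬝ᵥ k *
        star (((1 + I) / 2) • vl F.m p) b) = c / (6 * rep (F.p2 (geo G (1 / 2) g)) p) *
        rep (P354RN.ZZ F (F.p2 (geo G (1 / 2) g)) b) p := fun k c b ek => by
    rw [P354RN.ZZ, Z b, ek, show star (((1 + I) / 2) • vl F.m p) = _ from e]
    simp only [smul_dotProduct, Pi.smul_apply, smul_eq_mul, vl]
    linear_combination c / (3 * rep (F.p2 (geo G (1 / 2) g)) p) *
      (vl F.m p ⬝ᵥ k * rep (F.mb b) p - vl F.mb p ⬝ᵥ k * rep (F.m b) p) * c1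
  rcases (N.im P).lt_or_gt with q | q
  · have ev : ∀ᶠ y in 𝓝 p.2, rep (F.p2 (geo G (1 / 2) g)) (p.1, y) = star (Lap (g p.1) (pj y)) ∧
        y1 (R6 (g p.1) (pj y)) (vl F.l (p.1, y)) ((1 / 2 : ℂ) • vl F.n (p.1, y))
          (star (((1 + I) / 2) • vl F.m (p.1, y))) = 0 ∧
        y3 (R6 (g p.1) (pj y)) (vl F.l (p.1, y)) ((1 / 2 : ℂ) • vl F.n (p.1, y))
          (star (((1 + I) / 2) • vl F.m (p.1, y))) = 0 ∧
        Lap (g p.1) (pj y) = 2 * y2 (R6 (g p.1) (pj y)) (vl F.l (p.1, y))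
          ((1 / 2 : ℂ) • vl F.n (p.1, y)) (star (((1 + I) / 2) • vl F.m (p.1, y))) := by
      filter_upwards [K, ct.eventually (gt_mem_nhds q)] with y ⟨⟨⟨D, v, hp⟩, _, t⟩, k⟩ q
      obtain ⟨-, N, k1, k3, k2, k4⟩ := k D v hp _ _ _ rfl rfl rfl
      generalize vl F.l (p.1, y) = l at *
      generalize (1 / 2 : ℂ) • vl F.n (p.1, y) = n at *
      generalize ((1 + I) / 2) • vl F.m (p.1, y) = s at *
      have j1 : y1 (R6 (g p.1) (pj y)) l n (star s) = 0 := by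
        simpa only [y1, star_neg, rc_star, N.rl, N.rn, star_zero] using congrArg star k1
      have j3 : y3 (R6 (g p.1) (pj y)) l n (star s) = 0 := by
        simpa only [y3, rc_star, N.rl, N.rn, star_zero] using congrArg star k3
      have j2 : y2 (R6 (g p.1) (pj y)) l n (star s) = star (y2 (R6 (g p.1) (pj y)) l n s) := by
        simp only [y2, rc_star, N.rl, N.rn]
      have j4 : y0 (R6 (g p.1) (pj y)) l (star s) * y0 (R6 (g p.1) (pj y)) n (star (star s)) =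
          star (y0 (R6 (g p.1) (pj y)) l s * y0 (R6 (g p.1) (pj y)) n (star s)) := by
        simp only [y0, star_mul', star_neg, rc_star, N.rl, N.rn]
      have := hδ _ D _ l n (star s) v hp ((N.cj (pt_at v hp)).nf (by
        rw [det_cj, neg_im]; exact neg_pos.2 q)) j1 j3 (by
          rw [j4, j2, norm_star, norm_star]
          rw [← k4, ← k2, norm_mul (4 : ℂ), norm_mul (2 : ℂ)] at t
          norm_num at t ⊢
          linarith)
      exact ⟨by rw [this, j2, star_mul', star_star, star_ofNat, k2], j1, j3, this⟩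
    obtain ⟨i0, i1, i3, i2⟩ := ev.self_of_nhds
    obtain ⟨ε, h, f⟩ := zn_cj v hp a ((N.cj P).nf (by rw [det_cj, neg_im]; exact neg_pos.2 q))
      i1 i3 i2 rfl
    refine ⟨ε, h, fun b => ?_⟩
    rw [f, ← show rep _ p = star (Lap (g p.1) (pj p.2)) from i0, fin _ _ b (funext fun a => ?_)]
    rw [L a (fun x => star (Lap (g p.1) x)) df.star (ev.mono fun y k => k.1), fderiv_star]
    rfl
  · have ev : ∀ᶠ y in 𝓝 p.2, rep (F.p2 (geo G (1 / 2) g)) (p.1, y) = Lap (g p.1) (pj y) := by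
      filter_upwards [K, ct.eventually (lt_mem_nhds q)] with y ⟨⟨⟨D, v, hp⟩, _, t⟩, k⟩ q
      obtain ⟨-, N, k1, k3, k2, k4⟩ := k D v hp _ _ _ rfl rfl rfl
      rw [hδ _ D _ _ _ _ v hp (N.nf q) k1 k3 ?_, k2]
      rw [← k4, ← k2, norm_mul (4 : ℂ), norm_mul (2 : ℂ)] at t
      norm_num at t ⊢
      linarith
    have i0 : rep (F.p2 (geo G (1 / 2) g)) p = Lap (g p.1) (pj p.2) := ev.self_of_nhds
    obtain ⟨ε, h, f⟩ := zn_tf v hp a (N.nf q) k1 k3 (i0.symm.trans k2.symm) rfl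
    refine ⟨ε, h, fun b => ?_⟩
    rw [f, show P354YN.YN M (g p.1) (pj p.2) = (-2 * M / Lap (g p.1) (pj p.2)) ^ (1 / 3 : ℂ) from rfl,
      ← i0, fin _ _ b (funext fun a => L a _ df ev)]

end Vale.Agent.P354CS
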