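import Vale.Agent.P354CS.Lka
import Vale.Agent.P354CS.Ptb
import Vale.Agent.P354YN.Fld2

/-!
LINK: the gauge in terms of the transverse frame.
-/

set_option linter.all false
set_option maxSynthPendingDepth 3

open scoped ContDiff
open Set Filter Topology Complex

noncomputable section

namespace Vale.Agent.P354CS

open Vale.Agent.P354n (R4)
open Vale.Agent.P354RC (bs cv Gm sum_bs at_df Gm_add1 Gm_add2 Gm_smul1 Gm_smul2)
open Vale.Agent.P354XG Vale.Agent.P354XD Vale.Agent.P354XR Vale.Agent.P354YA Vale.Agent.P354HI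
open Vale.Agent.P354XE (Tw rd)
open Vale.Agent.P354XV (jet Lv Fst)
open Vale.Agent.P354YT (Pm)
open Vale.Agent.P354Z (f4)
open Vale.Agent.P354YN (C4 V4 A3 cV rV co vc dC GG R6 YN rN lN nN zN mN AJ Ad U2 Tf y0 y1 y2 y3
  co_eq co_vc vc_eq gm_re ip_jet)

/-- The complex components of a vector. -/
def kv (v : R4) : C4 := fun a => (cv a v : ℂ)

theorem kv_co (v : R4) : kv v = cV (co v) := funext fun a => by rw [cV, co_eq, kv]
theorem kv_vc (u : V4) : kv (vc u) = cV u := by rw [kv_co, co_vc]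
theorem kv_add (u v : R4) : kv (u + v) = kv u + kv v := funext fun a => by simp [kv]
theorem kv_sub (u v : R4) : kv (u - v) = kv u - kv v := funext fun a => by simp [kv]
theorem kv_neg (u : R4) : kv (-u) = -kv u := funext fun a => by simp [kv]
theorem kv_smul (t : ℝ) (u : R4) : kv (t • u) = (t : ℂ) • kv u := funext fun a => by simp [kv]
theorem kv_zero : kv 0 = 0 := funext fun a => by simp [kv]

theorem dC_kv (f : R4 → ℂ) (x u : R4) : dC f x (kv u) = fderiv ℝ f x u := by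
  conv_rhs => rw [← sum_bs u]
  simp only [dC, kv, map_sum, map_smul, real_smul]

theorem dC_smul (f : R4 → ℂ) (x : R4) (z : ℂ) (u : C4) : dC f x (z • u) = z * dC f x u := by
  simp only [dC, Pi.smul_apply, smul_eq_mul, Finset.mul_sum, mul_assoc]

theorem oc_abs {x : E6} (h : 0 < x.2.1 ∧ x.2.2 ≠ 0) : |oc x 3| ≤ 1 := by
  have n := nq_pos h.2
  have e : oc x 3 = (normSq x.2.2.1 - normSq x.2.2.2) / nq x := mul_div_cancel_left₀ _ h.1.ne'
  rw [e, abs_div, abs_of_pos n, div_le_one n, nq, abs_le]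
  constructor <;> linarith [normSq_nonneg x.2.2.1, normSq_nonneg x.2.2.2]

variable {J : Type} {G : Filter (J × E6)} [Loc G] {g : J → Tw} {X Y : Vec (Sm G)}

theorem vl_ext (h : ∀ᶠ p in G, vl X p = vl Y p) : X = Y :=
  funext fun a => ext_rep (h.mono fun _ e => congrFun e a)
theorem vl_add (X Y : Vec (Sm G)) : ∀ᶠ p in G, vl (X + Y) p = vl X p + vl Y p :=
  (eventually_all.2 fun a => rep_add (X a) (Y a)).mono fun _ e => funext e
theorem vl_sub (X Y : Vec (Sm G)) : ∀ᶠ p in G, vl (X - Y) p = vl X p - vl Y p :=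
  (eventually_all.2 fun a => rep_sub (X a) (Y a)).mono fun _ e => funext e
theorem vl_smul {u : Sm G} {f : J × E6 → ℂ} (h : Rs u f) (X : Vec (Sm G)) :
    ∀ᶠ p in G, vl (u • X) p = f p • vl X p :=
  (eventually_all.2 fun a => h.mul (rs_rep (X a))).mono fun _ e => funext e
theorem vl_zero : ∀ᶠ p in G, vl (0 : Vec (Sm G)) p = 0 :=
  (rep_zero (G := G)).mono fun _ e => funext fun _ => e

section
variable (o : Off G)
include o

/-- The derivative of a function of the base. -/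
theorem act_v (w : Op (Sm G)) (u : Sm G) (e : w.a * (hp G).H u + w.b * (hp G).B u = 0) :
    ∀ᶠ p in G, ∀ f : R4 → ℂ, DifferentiableAt ℝ f (pj p.2) →
      (sl (rep u) p.1 =ᶠ[𝓝 p.2] fun y => f (pj y)) →
      rep ((sG G g).act w u) p = dC f (pj p.2) (vl w.X p) := by
  have k : (sG G g).act w u = ∑ a, w.X a * (hp G).L a u := by
    rw [Geo.act_apply, add_assoc]
    exact (congrArg _ e).trans (add_zero _)
  rw [k]
  filter_upwards [eventually_all.2 fun a => L_at o u a,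
    Rs.sum Finset.univ fun a => (rs_rep (w.X a)).mul (rs_rep ((hp G).L a u))] with p h1 h2 f d k
  rw [h2]
  exact Finset.sum_congr rfl fun a _ => congrArg _ (h1 a f d k)

variable (hg : ∀ᶠ p in G, VacAt (g p.1) (pj p.2))
include hg

/-- The covariant derivative of a field of the base. -/
theorem nb_v (X Y : Vec (Sm G)) : ∀ᶠ p in G, ∀ (u : R4) (V : R4 → R4),
    DifferentiableAt ℝ V (pj p.2) → vl X p = kv u →
    (∀ᶠ y in 𝓝 p.2, vl Y (p.1, y) = kv (V (pj y))) → vl (nb0 (sG G g) X Y) p =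
      kv (fderiv ℝ V (pj p.2) u + Gm (tb (g p.1)) (pj p.2) u (V (pj p.2))) := by
  have r : ∀ d, Rs (nb0 (sG G g) X Y d) fun p => rep ((sG G g).act ⟨X, 0, 0⟩ (Y d)) p +
      ∑ a, ∑ b, (Gc (g p.1) a b d (pj p.2) : ℂ) * rep (X a) p * rep (Y b) p := fun d =>
    (rs_rep _).add (Rs.sum _ fun a => Rs.sum _ fun b => ((rs_pb o (f := fun j => Gc (g j) a b d)
      (hg.mono fun _ v => v.sm_G a b d)).mul (rs_rep _)).mul (rs_rep _))
  filter_upwards [eventually_all.2 r, eventually_all.2 fun d =>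
    act_v (g := g) o ⟨X, 0, 0⟩ (Y d) (by simp)] with p h1 h2 u V dV e1 e2
  funext d
  have k := ofRealCLM.hasFDerivAt.comp _ ((cv d).hasFDerivAt.comp _ dV.hasFDerivAt)
  have x : ∀ a, rep (X a) p = cv a u := congrFun e1
  have y : ∀ a, rep (Y a) p = cv a (V (pj p.2)) := congrFun e2.self_of_nhds
  rw [vl, h1, h2 d _ k.differentiableAt (e2.mono fun y e => congrFun e d), e1, dC_kv, k.fderiv, kv,
    map_add, ofReal_add]
  congr 1
  conv_rhs => rw [← sum_bs u, ← sum_bs (V (pj p.2))]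
  simp only [x, y, Gc, Fin.sum_univ_four, Gm_add1, Gm_add2, Gm_smul1, Gm_smul2, map_add, map_smul,
    smul_eq_mul]
  push_cast
  ring

theorem dt_v (X Y : Vec (Sm G)) : ∀ᶠ p in G, ∀ D u w, Lv (g p.1) D → pj p.2 ∈ D → vl X p = kv u →
    vl Y p = kv w → rep ((sG G g).dot X Y) p = (g p.1 (pj p.2) u w : ℝ) / 2 :=
  (rs_dt o hg X Y).mono fun p k D u w v hp e1 e2 => by
    refine k.trans ?_
    simp only [e1, e2, kv_co, gm_re v hp, P354YN.vc_co]

/-- The endomorphism aj. -/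
theorem aj_v (X Y Z : Vec (Sm G)) : ∀ᶠ p in G, ∀ D m w (F F2 : A3 → R4), Lv (g p.1) D →
    pj p.2 ∈ D → ContDiffAt ℝ ∞ F (m, jet 3 (g p.1) (pj p.2), w) →
    (∀ᶠ y in 𝓝 p.2, vl X (p.1, y) = kv (F (m, jet 3 (g p.1) (pj y), w))) →
    vl Y p = kv (F2 (m, jet 3 (g p.1) (pj p.2), w)) → vl Z p = kv w →
    (2 * mN m (g p.1) w (pj p.2) : ℂ) • vl (aj (sG G g) X Y Z) p =
      kv (AJ F F2 (m, jet 4 (g p.1) (pj p.2), w) w) := by
  filter_upwards [nb_v o hg X X, dt_v o hg (nb0 (sG G g) X X) Z, dt_v o hg Y Z,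
    vl_sub ((sG G g).dot (nb0 (sG G g) X X) Z • Y) ((sG G g).dot Y Z • nb0 (sG G g) X X),
    vl_smul (rs_rep ((sG G g).dot (nb0 (sG G g) X X) Z)) Y,
    vl_smul (rs_rep ((sG G g).dot Y Z)) (nb0 (sG G g) X X)] with p h1 h2 h3 h4 h5 h6 D m w F F2 v hp
    f e1 e2 e3
  have k := h1 _ (fun x => F (m, jet 3 (g p.1) x, w))
    (at_df (f.comp (pj p.2) (P354YN.j3_cd v hp))) e1.self_of_nhds e1
  rw [aj, h4, h5, h6, h2 D _ _ v hp k e3, h3 D _ _ v hp e2 e3, k, e2]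
  simp only [AJ, P354YN.nab_eq v hp f, ip_jet v.isOpen v.met hp, kv_smul, kv_sub, P354YN.dn,
    P354YN.tr_jet, mN, Function.comp_def]
  module

end

variable {c : Pm} {κ e : ℝ} {U : Set ℝ}

/-- The frame at a point. -/
theorem tf_v : ∃ δ > 0, ∀ {J : Type} {G : Filter (J × E6)} [Loc G] {g : J → Tw} {c κ U}, c.Ok →
    Gd G c κ δ g U → ∀ᶠ p in G, ∃ D l n s q t, Lv (g p.1) D ∧ pj p.2 ∈ D ∧
      vl (fT G c.M c.a g).l p = cV l ∧ vl (fT G c.M c.a g).n p = (2 : ℂ) • cV n ∧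
      vl (fT G c.M c.a g).m p = (1 - I) • s ∧ vl (fT G c.M c.a g).mb p = (1 + I) • star s ∧
      Tf (g p.1) (pj p.2) l n s q t ∧ Lap (g p.1) (pj p.2) = 2 * q ∧
      Lap (g p.1) (pj p.2) = vP c.M c.a (g p.1, p.2) := by
  obtain ⟨δ, δ0, hδ⟩ := ex_la
  refine ⟨δ, δ0, fun {J G _ g c κ U} o h => ?_⟩
  have k := gd_k1 h
  have w := fT_wn (ku k)
  filter_upwards [h, gd_sg o h, rs_P2 k, fr_at (pos k).off (vac k) w.1.nl w.2.1 w.2.2]
    with p ⟨s, b, _⟩ ⟨t, _, _, d⟩ e f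
  obtain ⟨D, v, hp⟩ := b.lv
  obtain ⟨e0, N, k1, k3, k2, k4⟩ := f D v hp _ _ _ rfl rfl rfl
  have c1 : (1 + I) / 2 * ((1 - I) / 2) = 1 / 2 := by linear_combination -I_mul_I / 4
  have N' := N.nf (by
    have : (P354YN.fr (vl (fT G c.M c.a g).l p) ((1 / 2 : ℂ) • vl (fT G c.M c.a g).n p)
        (((1 + I) / 2) • vl (fT G c.M c.a g).m p)).det = ((1 / 4 : ℝ) : ℂ) *
        (Matrix.of fun i d => rep (fv (fT G c.M c.a g) i d) p).det := by
      simp only [P354YN.det4, P354YN.frv, e0, Matrix.of_apply, Pi.smul_apply, smul_eq_mul, vl, fv,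
        Matrix.cons_val]
      generalize (1 + I) / 2 = x at *
      generalize (1 - I) / 2 = y at *
      rw [show ((1 / 4 : ℝ) : ℂ) = x * y / 2 by rw [c1]; norm_num]
      ring
    rw [this, im_ofReal_mul]
    positivity)
  have t' := t
  rw [show rep (gT G c.M c.a g).P2 p = _ from k2.symm, show rep (gT G c.M c.a g).P0 p *
    rep (gT G c.M c.a g).P4 p = _ from k4.symm, norm_mul (4 : ℂ), norm_mul (2 : ℂ)] at t'
  have la := hδ _ D _ _ _ _ v hp N' k1 k3 (by norm_num at t' ⊢; linarith)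
  have q0 := right_ne_zero_of_mul (k2.trans_ne (e.trans_ne (k1_ne s.k1.2).1))
  obtain ⟨l, el⟩ : ∃ x, cV x = _ := ⟨_, P354YN.cV_rV N.rl⟩
  obtain ⟨n, en⟩ : ∃ x, cV x = _ := ⟨_, P354YN.cV_rV N.rn⟩
  refine ⟨D, l, n, _, _, _, v, hp, el.symm, by rw [en, smul_smul]; simp, ?_, ?_, (Tf.y v hp).2
    ⟨by rwa [el, en], by rwa [el, en], by rwa [el, en], rfl, (div_mul_cancel₀ _
      (pow_ne_zero 2 (by rwa [el, en]))).symm⟩, by rwa [el, en], la.trans (k2.trans e)⟩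
  · rw [smul_smul, show (1 - I) * ((1 + I) / 2) = 1 by linear_combination 2 * c1, one_smul]
  · rw [e0, smul_smul, show (1 + I) * ((1 - I) / 2) = 1 by linear_combination 2 * c1, one_smul]

theorem yn_eq (o : Ok2 c) {γ : Tw} {x : E6} (k : x ∈ K1 c.M c.a γ) (u : |dd c (pj x)| < 2)
    (e : Lap γ (pj x) = vP c.M c.a (γ, x)) :
    yK c.a x * qt c.M c.a (γ, x) ^ (1 / 3 : ℂ) = YN c.M γ (pj x) := by
  obtain ⟨h1, h2, h3⟩ := k1_ne k.2
  have p := k.1.self_of_nhds.1.1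
  rw [← cube _ h3, show YN c.M γ (pj x) = (-2 * c.M / Lap γ (pj x)) ^ (1 / 3 : ℂ) from rfl, e, qt]
  · congr 1
    field_simp
  · have a := mul_le_of_le_one_right (abs_nonneg c.a) (oc_abs p)
    rw [dd, rd_pj p.1 p.2, abs_lt] at u
    simp only [yK, mul_assoc, ← ofReal_mul, sub_im, sub_re, ofReal_im, ofReal_re, I_mul_im, I_mul_re,
      zero_sub, abs_neg, abs_mul, neg_zero, sub_zero]
    linarith [o.1.sub, o.2, o.1.M0]

/-- The natural fields of the family are the natural fields of the metrics. -/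
theorem nat_v : ∃ δ > 0, ∀ {J : Type} {G : Filter (J × E6)} [Loc G] {g : J → Tw} {c κ U}, Ok2 c →
    Gd G c κ δ g U → U ⊆ {d | |d| < 2} → ∀ᶠ p in G, |dd c (pj p.2)| ≤ 7 / 4 →
      vl (lv G c.M c.a g) p = kv (lN c.M (g p.1) (c.X (pj p.2)) (pj p.2)) ∧
      vl (nv G c.M c.a g) p = kv (nN c.M (g p.1) (c.X (pj p.2)) (pj p.2)) ∧
      vl (Zv G c.M c.a g) p = kv (zN c.M (g p.1) (c.X (pj p.2)) (pj p.2)) ∧
      rep (-(lr G c.M c.a g * nr G c.M c.a g)) p = 2 * mN c.M (g p.1) (c.X (pj p.2)) (pj p.2) := by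
  obtain ⟨δ, δ0, hδ⟩ := tf_v
  refine ⟨δ, δ0, fun {J G _ g c κ U} o h u => ?_⟩
  have k := gd_k1 h
  have T := hδ o.1 h
  have I := gT_is (ku k)
  have y : rep (Yc G c.M c.a g) =ᶠ[G] fun p => YN c.M (g p.1) (pj p.2) := by
    filter_upwards [rs_Yc k, k, h, T] with p e k h ⟨_, _, _, _, _, _, _, _, _, _, _, _, _, _, t⟩
    exact e.trans (yn_eq o k (u h.2.2) t)
  have d : ∀ w : Op (Sm G), ∀ᶠ p in G, DifferentiableAt ℝ (YN c.M (g p.1)) (pj p.2) →
      rep ((sG G g).act w (Yc G c.M c.a g)) p = dC (YN c.M (g p.1)) (pj p.2) (vl w.X p) := fun w =>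
    ((act_v (g := g) (pos k).off w _ (by rw [H_Yc k, B_Yc k]; simp)).and (sl_congr y)).mono
      fun p e f => e.1 _ f e.2
  have s := gd_sg o.1 h
  have z : ∀ D : Der (Sm G), algebraMap ℂ _ ((c0 c.M / 8 : ℝ) : ℂ) * (2 * D (ze G c.M c.a g)) =
      algebraMap ℂ _ (1 / 4) * D (Yc G c.M c.a g) := fun D => by
    rw [ze, D_mul, D_alg, mul_zero, add_zero, ← map_ofNat (algebraMap ℂ (Sm G)) 2, ← mul_assoc,
      ← mul_assoc, ← map_mul, ← map_mul]
    have := ofReal_ne_zero.2 (c0_ne o.1.M0)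
    congr 2
    push_cast
    field_simp
    ring
  have z' : ∀ f f' : Sm G, algebraMap ℂ _ ((c0 c.M / 8 : ℝ) : ℂ) * f = algebraMap ℂ _ (1 / 4) * f' →
      algebraMap ℂ _ ((c0 c.M / 8 : ℝ) : ℂ) * cj f = algebraMap ℂ _ (1 / 4) * cj f' := fun f f' e => by
    simpa only [map_mul, cj_alg, conj_ofReal, map_div₀, map_one, map_ofNat] using congrArg cj e
  obtain ⟨F, hF⟩ : ∃ F, F = fT G c.M c.a g := ⟨_, rfl⟩
  obtain ⟨Y, hY⟩ : ∃ Y : Fin 4 → Sm G, Y = fun i => f4 (gT G c.M c.a g) i (Yc G c.M c.a g) := ⟨_, rfl⟩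
  have e1 : lr G c.M c.a g = algebraMap ℂ _ (1 / 2) * (Y 0 + cj (Y 0)) := by
    rw [hY, lr, rt, Geo.hf, D_mul, D_alg, mul_zero, add_zero, D_add]
    exact congrArg (fun x => _ * (_ + x)) (I.th_c _)
  have e2 : nr G c.M c.a g = algebraMap ℂ _ (1 / 2) * (Y 1 + cj (Y 1)) := by
    rw [hY, nr, rt, Geo.hf, D_mul, D_alg, mul_zero, add_zero, D_add]
    exact congrArg (fun x => _ * (_ + x)) (I.tp_c _)
  have e3 : ∀ b, Zv G c.M c.a g b = algebraMap ℂ (Sm G) (1 / 4) * (-(Y 1 + cj (Y 1)) * F.l b +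
      (Y 0 + cj (Y 0)) * F.n b + (Y 3 - cj (Y 2)) * F.m b + (cj (Y 3) - Y 2) * F.mb b) := fun b => by
    have c : ∀ f, (gT G c.M c.a g).c f = cj f := fun _ => rfl
    simp only [Zv, cb, zr, xi, P354XF.bar, Matrix.cons_val, hF, hY, f4, c, map_neg, mul_add, mul_neg,
      z, z' _ _ (z _), Pi.add_apply, Pi.smul_apply, smul_eq_mul]
    ring
  have d' : ∀ i, ∀ᶠ p in G, DifferentiableAt ℝ (YN c.M (g p.1)) (pj p.2) →
      rep (Y i) p = dC (YN c.M (g p.1)) (pj p.2) (vl (fv F i) p) := by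
    subst hF hY
    exact P354YN.all4.2 ⟨d _, d _, d _, d _⟩
  have r := fun i => rs_rep (Y i)
  have r1 : Rs (lr G c.M c.a g) _ := e1 ▸ (rs_alg _).mul ((r 0).add (r 0).cj)
  have r2 : Rs (nr G c.M c.a g) _ := e2 ▸ (rs_alg _).mul ((r 1).add (r 1).cj)
  have r3 : ∀ b, Rs (Zv G c.M c.a g b) _ := fun b => e3 b ▸ (rs_alg _).mul ((((((r 1).add
    (r 1).cj).neg.mul (rs_rep (F.l b))).add (((r 0).add (r 0).cj).mul (rs_rep (F.n b)))).add
    (((r 3).sub (r 2).cj).mul (rs_rep (F.m b)))).add (((r 3).cj.sub (r 2)).mul (rs_rep (F.mb b))))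
  have i1 := (rs_rep _).of_mul (Ring.mul_inverse_cancel _ (lr_unit o.1 h u))
  have i2 := (rs_rep _).of_mul (Ring.mul_inverse_cancel _ (nr_unit o.1 h))
  rw [lv, nv, ← hF]
  rw [← hF] at T s
  filter_upwards [h, s, T, eventually_all.2 d', r1, r2, eventually_all.2 r3,
    vl_smul i1 F.l, vl_smul i2.neg F.n, ((rs_rep (lr G c.M c.a g)).mul (rs_rep (nr G c.M c.a g))).neg,
    rs_dt (pos k).off (vac k) (lr G c.M c.a g • F.n - nr G c.M c.a g • F.l) (vk G c.X),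
    vl_sub (lr G c.M c.a g • F.n) (nr G c.M c.a g • F.l), vl_smul (rs_rep (lr G c.M c.a g)) F.n,
    vl_smul (rs_rep (nr G c.M c.a g)) F.l, eventually_all.2 fun b => (rs_vk (pos k) o.1 b).2]
    with p h s ⟨D, l, n, m, q, t, v, hp, f1, f2, f3, f4, T, la, _⟩ d r1 r2 r3 i1 i2 b0 b1
      b2 b3 b4 b5 u'
  have a := h.2.1.ad u'
  have df := at_df (P354YN.yn_cd v hp a.1)
  have d0 : rep (Y 0) p = _ := (d 0 df).trans (congrArg _ f1)
  have d1 : rep (Y 1) p = _ := (d 1 df).trans ((congrArg _ f2).trans (dC_smul ..))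
  have d2 : rep (Y 2) p = _ := (d 2 df).trans ((congrArg _ f3).trans (dC_smul ..))
  have d3 : rep (Y 3) p = _ := (d 3 df).trans ((congrArg _ f4).trans (dC_smul ..))
  have dr : ∀ x, dC (YN c.M (g p.1)) (pj p.2) (cV x) + starRingEnd ℂ (dC (YN c.M (g p.1)) (pj p.2)
      (cV x)) = 2 * fderiv ℝ (rN c.M (g p.1)) (pj p.2) (vc x) := fun x => by
    rw [add_conj, P354YN.dr_eq v hp a.1, ← kv_vc, dC_kv, ofReal_mul, ofReal_ofNat]
  have x1 : rep (lr G c.M c.a g) p = fderiv ℝ (rN c.M (g p.1)) (pj p.2) (vc l) := by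
    rw [r1, d0, dr]
    ring
  have x2 : rep (nr G c.M c.a g) p = (2 * fderiv ℝ (rN c.M (g p.1)) (pj p.2) (vc n) : ℝ) := by
    rw [r2, d1, map_mul, map_ofNat, ← mul_add, dr]
    push_cast
    ring
  obtain ⟨-, s1, s2, -⟩ := s
  obtain ⟨s2, s3⟩ := s2 (u h.2.2)
  have x3 : vl (vk G c.X) p = cV (co (c.X (pj p.2))) := (funext b5).trans (kv_co _)
  rw [sG, b1, b2, b3, b4, f1, f2, x1, x2, x3, sub_eq_add_neg, ← neg_smul] at s3
  simp only [P354YN.gm_add1, P354YN.gm_smul1, gm_re v hp, P354YN.vc_co, ← ofReal_neg, ← ofReal_mul,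
    ← ofReal_ofNat, ← ofReal_add, ← ofReal_div, ofReal_re] at s3
  rw [x2, ofReal_re] at s1
  rw [x1, ofReal_re] at s2
  obtain ⟨-, -, g1, g2, g3, g4⟩ := P354YN.frm.2.2 c.M _ D (c.X (pj p.2)) _ l n m q t v hp a.1 T la
    ⟨mul_neg_of_pos_of_neg s2 (by linarith), by linarith⟩
  refine ⟨?_, ?_, funext fun b => ?_, ?_⟩
  · rw [li, i1, g2, kv_smul, kv_vc, x1, f1, ofReal_inv]
  · rw [ni, i2, g3, kv_neg, kv_smul, kv_vc, x2, f2, smul_smul, ← neg_smul, ofReal_mul, mul_inv,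
      ofReal_inv]
    congr 1
    push_cast
    ring
  · have y1 : rep (F.l b) p = _ := congrFun f1 b
    have y2 : rep (F.n b) p = _ := congrFun f2 b
    have y3 : rep (F.m b) p = _ := congrFun f3 b
    have y4 : rep (F.mb b) p = _ := congrFun f4 b
    rw [vl, r3, g4, kv_vc, cV, rV, re_eq_add_conj, d0, d1, d2, d3, y1, y2, y3, y4]
    simp only [Pi.add_apply, Pi.sub_apply, Pi.neg_apply, Pi.smul_apply, Pi.star_apply, smul_eq_mul,
      map_add, map_sub, map_neg, map_mul, map_ofNat, map_one, conj_I, cV, conj_ofReal, star_def,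
      conj_conj]
    generalize dC _ _ m = x, dC _ _ (star m) = y
    linear_combination -((y - starRingEnd ℂ x) * m b + (starRingEnd ℂ y - x) * starRingEnd ℂ (m b)) /
      4 * I_mul_I
  · rw [b0, x1, x2, g1]
    push_cast
    ring

theorem vl_vk (o : c.Ok) (h : Pos G) : ∀ᶠ p in G, vl (vk G c.X) p = kv (c.X (pj p.2)) :=
  (eventually_all.2 fun b => (rs_vk h o b).2).mono fun _ e => funext e

theorem acc_v (o : c.Ok) (h : Gd G c κ e g U) : ∀ᶠ p in G,
    vl (nb0 (sG G g) (vk G c.X) (vk G c.X)) p = kv (fderiv ℝ c.X (pj p.2) (c.X (pj p.2)) +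
      Gm (tb (g p.1)) (pj p.2) (c.X (pj p.2)) (c.X (pj p.2))) := by
  have k := gd_k1 h
  filter_upwards [pos k, nb_v (pos k).off (vac k) (vk G c.X) (vk G c.X),
    Loc.ev _ (vl_vk o (pos k))] with p a b d
  exact b _ _ (at_df (o.X_cd (by rw [rd_pj a.1 a.2]; exact a.1))) d.self_of_nhds d

theorem cp_cd : ContDiff ℝ ∞ cp := by
  unfold cp P354YA.tp
  have := Real.smoothTransition.contDiff (n := ⊤)
  fun_prop

theorem link : LINK := by
  obtain ⟨δ, δ0, hδ⟩ := nat_v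
  refine ⟨δ, δ0, fun c o κ J G _ g U h => ?_⟩
  have k := gd_k1 h
  have po := pos k
  refine ⟨fun u => vl_ext ?_, fun u => vl_ext ?_, fun u => vl_ext ?_⟩
  · filter_upwards [h, hδ o h (u.trans fun d (t : |d| < 5 / 4) => show |d| < 2 by linarith),
      vl_vk o.1 po,
      vl_add (kf G (ca c) • Zv G c.M c.a g + kf G (cl c) • lv G c.M c.a g)
        (kf G (cn c) • nv G c.M c.a g),
      vl_add (kf G (ca c) • Zv G c.M c.a g) (kf G (cl c) • lv G c.M c.a g),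
      vl_smul (rs_kf po fun _ r => (P354XV.co_cd (c := c) r).1).2 (Zv G c.M c.a g),
      vl_smul (rs_kf po fun _ r => (P354XV.co_cd (c := c) r).2.1).2 (lv G c.M c.a g),
      vl_smul (rs_kf po fun _ r => (P354XV.co_cd (c := c) r).2.2.1).2 (nv G c.M c.a g)]
      with p h n e1 e2 e3 e4 e5 e6
    have t : |dd c (pj p.2)| < 5 / 4 := u h.2.2
    obtain ⟨n1, n2, n3, -⟩ := n (by linarith)
    rw [e1, e2, e3, e4, e5, e6, n1, n2, n3, ← kv_smul, ← kv_smul, ← kv_smul, ← kv_add, ← kv_add]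
    exact congrArg kv (h.2.1.sh t.le)
  · have r1 := (rs_kf po fun p r => cp_cd.contDiffAt.comp p (P354XV.co_cd (c := c) r).2.2.2).2
    have r2 := (rs_kf po fun p r => cp_cd.contDiffAt.comp p (P354XV.co_cd (c := c) r).2.2.2.neg).2
    have a1 := aj_v po.off (vac k) (lv G c.M c.a g) (nv G c.M c.a g) (vk G c.X)
    have a2 := aj_v po.off (vac k) (nv G c.M c.a g) (lv G c.M c.a g) (vk G c.X)
    have n := hδ o h fun d t => (u t).2
    generalize aj (sG G g) (lv G c.M c.a g) (nv G c.M c.a g) (vk G c.X) = A at a1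
    generalize aj (sG G g) (nv G c.M c.a g) (lv G c.M c.a g) (vk G c.X) = B at a2
    filter_upwards [h, po, Loc.ev _ n, vl_vk o.1 po, acc_v o.1 h, a1, a2, vl_smul r1 A, vl_smul r2 B,
      vl_add (kf G (fun p => cp (dd c p)) • A) (kf G (fun p => cp (-dd c p)) • B),
      vl_smul (rs_rep (-(lr G c.M c.a g * nr G c.M c.a g)))
        (kf G (fun p => cp (dd c p)) • A + kf G (fun p => cp (-dd c p)) • B)]
      with p h po n e1 e2 a1 a2 e3 e4 e5 e6
    obtain ⟨D, v, hp⟩ := h.2.1.lv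
    rw [e2, e6, e5]
    erw [e3, e4]
    simp only [Function.comp_def]
    rcases le_or_gt (7 / 4) |dd c (pj p.2)| with t | t
    · have : cp (dd c (pj p.2)) = 0 ∧ cp (-dd c (pj p.2)) = 0 := by
        rcases le_abs'.1 t with t | t
        exacts [⟨P354XV.cp_low (by linarith), P354XV.cp_high (by linarith)⟩,
          ⟨P354XV.cp_high t, P354XV.cp_low (by linarith)⟩]
      simp [h.2.1.geo t, this, kv_zero]
    have a := h.2.1.ad t.le
    have cj := (cd_pj po.2).continuousAt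
    have z := cj.eventually (P354XV.frz P354YN.fld v hp
      (o.1.X_cd (by rw [rd_pj po.1 po.2]; exact po.1)) a)
    have n' := (n.and (z.and ((P354XV.dd_cont.continuousAt.comp cj).abs.eventually_lt_const t))).mono
      fun y b => And.intro ((b.1 b.2.2.le).1.trans (congrArg kv b.2.1.1))
        ((b.1 b.2.2.le).2.1.trans (congrArg kv b.2.1.2.1))
    obtain ⟨n1, n2, -, n3⟩ := n.self_of_nhds t.le
    have q : P354YA.tp (dd c (pj p.2)) * P354YA.tp (-dd c (pj p.2)) = 0 := by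
      rcases le_abs'.1 (u h.2.2).1.le with t | t
      exacts [by rw [P354XV.tp_zero (d := -_) (by linarith), mul_zero],
        by rw [P354XV.tp_zero t, zero_mul]]
    rw [h.2.1.gau.acc v hp, n3, smul_add, smul_comm, smul_comm _ (cp _ : ℂ),
      a1 D _ _ _ _ v hp (P354YN.lj_at a) (n'.mono fun _ b => b.1) n2 e1,
      a2 D _ _ _ _ v hp (P354YN.nj_at a) (n'.mono fun _ b => b.2) n1 e1, ← kv_smul, ← kv_smul,
      ← kv_add]
    simp only [nat, Fa, q, zero_smul, zero_add]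
  · filter_upwards [h, acc_v o.1 h, vl_zero] with p h e z
    rw [e, z, h.2.1.geo (le_of_lt (u h.2.2)), kv_zero]

end Vale.Agent.P354CS
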