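import Vale.Agent.P354HI.Defs

/-!
The complex radius of a family: values, algebraic relations, and the change of the family.
-/

set_option linter.all false

open scoped ContDiff
open Set Filter Topology Complex

noncomputable section

namespace Vale.Agent.P354CS

open Vale.Agent.P354n (R4)
open Vale.Agent.P354RC (cv)
open Vale.Agent.P354XG Vale.Agent.P354XD Vale.Agent.P354XR Vale.Agent.P354YA Vale.Agent.P354HI
open Vale.Agent.P354XE (Tw rd)
open Vale.Agent.P354YT (Pm)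

variable {M a : ℝ} {J : Type} {G : Filter (J × E6)} [Loc G] {g : J → Tw}

theorem k1_ne {p : Tw × E6} (h : ‖qt M a p - 1‖ < 1 / 2) :
    vP M a p ≠ 0 ∧ yK a p.2 ≠ 0 ∧ 0 < (qt M a p).re := by
  have k : 0 < (qt M a p).re := by
    have := (abs_lt.1 ((abs_re_le_norm _).trans_lt h)).1
    rw [sub_re, one_re] at this
    linarith
  refine ⟨fun e => ?_, fun e => ?_, k⟩ <;> simp [qt, e] at k

theorem yK_cd {x : E6} (h : 0 < x.2.1 ∧ x.2.2 ≠ 0) : ContDiffAt ℝ ∞ (yK a) x := by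
  have e : ContDiffAt ℝ ∞ (fun x : E6 => oc x 3) x :=
    (cd_pj h.2).snd.snd.snd.div contDiffAt_snd.fst h.1.ne'
  exact (ofRealCLM.contDiff.contDiffAt.comp x contDiffAt_snd.fst).sub
    (contDiffAt_const.mul (ofRealCLM.contDiff.contDiffAt.comp x e))

theorem qt_cd {g : Tw} {x : E6} (h : x ∈ K1 M a g) : ContDiffAt ℝ ∞ (fun y => qt M a (g, y)) x := by
  have e : ContDiffAt ℝ ∞ (fun y => vP M a (g, y)) x :=
    eventually_top.1 (ev_nb_on (rep_sm (gT (GU M a) M a id).P2)) g x h.1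
  obtain ⟨h1, h2, -⟩ := k1_ne h.2
  simp only [qt, div_eq_mul_inv]
  exact contDiffAt_const.mul ((e.mul ((yK_cd h.1.self_of_nhds.1.1).pow 3)).inv
    (mul_ne_zero h1 (pow_ne_zero 3 h2)))

theorem G1_ev : ∀ᶠ p in G1 M a, p.2 ∈ K1 M a p.1 :=
  ev_nb.2 (Eventually.of_forall fun g _ hx => ((KU_open g).eventually_mem hx.1).and
    (((qt_cd hx).continuousAt.sub continuousAt_const).norm.eventually_lt_const hx.2))

/-- The cube root. -/
theorem cube {y q : ℂ} (hy : 2 * |y.im| < y.re) (hq : 0 < q.re) :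
    (y ^ 3 * q) ^ (1 / 3 : ℂ) = y * q ^ (1 / 3 : ℂ) := by
  have q0 : q ≠ 0 := fun e => by simp [e] at hq
  have r0 : 0 < y.re := lt_of_le_of_lt (by positivity) hy
  have y0 : y ≠ 0 := fun e => by simp [e] at r0
  have p0 := Real.pi_pos
  have a1 := abs_lt.1 (abs_arg_lt_pi_div_two_iff.2 (.inl hq))
  have a2 := abs_lt.1 (abs_arg_lt_pi_div_two_iff.2 (.inl r0))
  have a3 : |arg y| < Real.pi / 6 := by
    have s : |Real.sin (arg y)| < Real.sin (Real.pi / 6) := by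
      rw [sin_arg, Real.sin_pi_div_six, abs_div, abs_norm, div_lt_iff₀ (norm_pos_iff.2 y0)]
      linarith [re_le_norm y]
    rw [abs_lt] at s ⊢
    rw [← Real.sin_neg] at s
    exact ⟨(Real.strictMonoOn_sin.lt_iff_lt ⟨by linarith, by linarith⟩ ⟨a2.1.le, a2.2.le⟩).1 s.1,
      (Real.strictMonoOn_sin.lt_iff_lt ⟨a2.1.le, a2.2.le⟩ ⟨by linarith, by linarith⟩).1 s.2⟩
  rw [abs_lt] at a3
  have e : y ^ 3 * q = exp (3 * log y + log q) := by
    rw [exp_add, exp_log q0, show (3 : ℂ) = (3 : ℕ) by simp, exp_nat_mul, exp_log y0]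
  rw [e, cpow_def_of_ne_zero (exp_ne_zero _), log_exp, cpow_def_of_ne_zero q0,
    show (3 * log y + log q) * (1 / 3) = log y + log q * (1 / 3) by ring, exp_add, exp_log y0]
  all_goals
    simp only [add_im, mul_im, re_ofNat, im_ofNat, log_im]
    linarith

section
variable (h : ∀ᶠ p in G, p.2 ∈ K1 M a (g p.1))
include h

omit [Loc G] in
theorem ku : ∀ᶠ p in G, p.2 ∈ KU M a (g p.1) := h.mono fun _ k => k.1
omit [Loc G] in
theorem pos : Pos G := (k0_of (ku h)).mono fun _ k => k.1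
omit [Loc G] in
theorem vac : ∀ᶠ p in G, VacAt (g p.1) (pj p.2) := (k0_of (ku h)).mono fun _ k => k.2

theorem rs_P2 : Rs (gT G M a g).P2 fun p => vP M a (g p.1, p.2) :=
  (gT_hom (ku h)).P2 ▸ (rx_of (ku h)).rep _

omit [Loc G] in
theorem Yc_sm : SmF G fun p => yK a p.2 * qt M a (g p.1, p.2) ^ (1 / 3 : ℂ) :=
  h.mono fun p k => by
    have e : ContDiffAt ℂ ∞ (fun z : ℂ => z ^ (1 / 3 : ℂ)) (qt M a (g p.1, p.2)) :=
      (analyticAt_id.cpow analyticAt_const (.inl (k1_ne k.2).2.2)).contDiffAt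
    have e' := (e.restrict_scalars ℝ).comp p.2 (qt_cd k)
    exact (yK_cd k.1.self_of_nhds.1.1).mul e'

theorem rs_Yc : Rs (Yc G M a g) fun p => yK a p.2 * qt M a (g p.1, p.2) ^ (1 / 3 : ℂ) :=
  rs_gm (Yc_sm h)

theorem Yc_cube : Yc G M a g ^ 3 * (gT G M a g).P2 = algebraMap ℂ _ (-2 * M) :=
  (((rs_Yc h).pow 3).mul (rs_P2 h)).ext (rs_alg _) (h.mono fun p k => by
    obtain ⟨h1, h2, -⟩ := k1_ne k.2
    simp only [mul_pow, one_div, cpow_ofNat_inv_pow, qt] at h2 ⊢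
    field_simp)

theorem P2_unit : IsUnit (gT G M a g).P2 := (rs_P2 h).unit (h.mono fun _ k => (k1_ne k.2).1)

theorem Yc_unit : IsUnit (Yc G M a g) := (rs_Yc h).unit (h.mono fun _ k => mul_ne_zero
  (k1_ne k.2).2.1 (cpow_ne_zero_iff.2 (.inl fun e => by simpa [e] using (k1_ne k.2).2.2)))

/-- A derivation which kills P2 kills Yc. -/
theorem D_Yc (D : Der (Sm G)) (e : D (gT G M a g).P2 = 0) : D (Yc G M a g) = 0 := by
  have k := congrArg D (Yc_cube h)
  rw [D_alg, D_mul, e, D.leibniz_pow] at k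
  refine ((Yc_unit h).pow 2).mul_right_eq_zero.1 ((P2_unit h).mul_right_eq_zero.1 ?_)
  have t : (3 : Sm G) * algebraMap ℂ _ (1 / 3) = 1 := by
    rw [← map_ofNat (algebraMap ℂ (Sm G)), ← map_mul]; norm_num
  simp only [smul_eq_mul, nsmul_eq_mul, Nat.cast_ofNat] at k
  linear_combination algebraMap ℂ (Sm G) (1 / 3) * k -
    (gT G M a g).P2 * Yc G M a g ^ 2 * D (Yc G M a g) * t

theorem H_Yc : (hp G).H (Yc G M a g) = 0 := D_Yc h _ (gT_is (ku h)).H_P2
theorem B_Yc : (hp G).B (Yc G M a g) = 0 := D_Yc h _ (gT_is (ku h)).Hb_P2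

theorem H_rt : (hp G).H (rt G M a g) = 0 ∧ (hp G).B (rt G M a g) = 0 := by
  have e1 : (hp G).H (cj (Yc G M a g)) = cj ((hp G).B (Yc G M a g)) := (gT_is (ku h)).H_c _
  have e2 : (hp G).B (cj (Yc G M a g)) = cj ((hp G).H (Yc G M a g)) := (gT_is (ku h)).Hb_c _
  simp only [rt, Geo.hf, D_mul, D_add, D_alg, e1, e2, H_Yc h, B_Yc h, map_zero, add_zero, mul_zero,
    and_self]

omit h in
theorem c0_cube (m : 0 < M) : (c0 M : ℂ) ^ 3 = -2 * M := by
  have : ((2 * M) ^ (1 / 3 : ℝ)) ^ 3 = 2 * M := by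
    rw [one_div]; exact Real.rpow_inv_natCast_pow (by positivity) three_ne_zero
  rw [c0, ← ofReal_pow, Odd.neg_pow (by decide), this]
  push_cast
  ring

omit h in
theorem c0_ne (m : 0 < M) : c0 M ≠ 0 := neg_ne_zero.2 (by positivity)

theorem ze_cube (m : 0 < M) : ze G M a g ^ 3 * (gT G M a g).P2 = 1 := by
  rw [ze, mul_pow, mul_assoc, Yc_cube h, ← map_pow, ← map_mul, ← c0_cube m, ofReal_inv, ← mul_pow,
    inv_mul_cancel₀ (ofReal_ne_zero.2 (c0_ne m)), one_pow, map_one]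

theorem ze_zi (m : 0 < M) : ze G M a g * zi G M a g = 1 :=
  Ring.mul_inverse_cancel _ (isUnit_of_mul_isUnit_left (y := ze G M a g ^ 2 * (gT G M a g).P2)
    (by rw [← mul_assoc, ← pow_succ', ze_cube h m]; exact isUnit_one))

theorem zi_cube (m : 0 < M) : zi G M a g ^ 3 = (gT G M a g).P2 := by
  linear_combination -zi G M a g ^ 3 * ze_cube h m + (gT G M a g).P2 *
    ((ze G M a g * zi G M a g) ^ 2 + ze G M a g * zi G M a g + 1) * ze_zi h m

/-- The data of a family are the images of the data on G1. -/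
theorem hom1 : GHom (sG (G1 M a) id) (sG G g) (rx_of h).rix ∧
    fm (rx_of h).rix (fT (G1 M a) M a id) = fT G M a g ∧
    GHP.Hom (gT (G1 M a) M a id) (gT G M a g) (rx_of h).rix ∧
    (rx_of h).rix (lr (G1 M a) M a id) = lr G M a g ∧
    (rx_of h).rix (nr (G1 M a) M a id) = nr G M a g := by
  have k : ∀ᶠ p in G1 M a, p.2 ∈ K1 M a (id p.1) := G1_ev
  have m : GHom (sG (G1 M a) id) (sG G g) (rx_of h).rix := (rx_of h).geo (pos k).off _ (vac k)
  have f := ((rx_of h).rf (fT_rf (ku k))).ext (fT_rf (ku h)) EventuallyEq.rfl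
  have m' : GHP.Hom (gT (G1 M a) M a id) (gT G M a g) (rx_of h).rix := by
    rw [gT, gT, ← f]
    exact m.ghp _
  have y : (rx_of h).rix (Yc (G1 M a) M a id) = Yc G M a g := (rx_of h).rix_gm (Yc_sm k)
  have r : (rx_of h).rix (rt (G1 M a) M a id) = rt G M a g := by
    simp only [rt, map_mul, map_add, map_hf, Rx.rix_cj, y]
  exact ⟨m, f, m', by rw [lr, m'.th, r, lr], by rw [nr, m'.tp, r, nr]⟩

end

theorem rs_kf (o : Pos G) {f : R4 → ℝ} (h : ∀ p, 0 < rd p → ContDiffAt ℝ ∞ f p) :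
    SmB G (fun _ => f) ∧ Rs (kf G f) fun p => (f (pj p.2) : ℂ) :=
  have s : SmB G fun _ => f := o.mono fun p k => h _ (by rw [rd_pj k.1 k.2]; exact k.1)
  ⟨s, rs_pb o.off s⟩

theorem rs_vk {c : Pm} (o : Pos G) (k : c.Ok) (d : Fin 4) : SmB G (fun _ p => cv d (c.X p)) ∧
    Rs (vk G c.X d) fun p => (cv d (c.X (pj p.2)) : ℂ) :=
  rs_kf o fun p h => (cv d).contDiff.contDiffAt.comp p (k.X_cd h)

variable {c : Pm} {κ e : ℝ} {U : Set ℝ}

omit [Loc G] in
theorem gd_k1 (h : Gd G c κ e g U) : ∀ᶠ p in G, p.2 ∈ K1 c.M c.a (g p.1) := h.mono fun _ k => k.1.k1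

/-- The signs for the family. -/
theorem gd_sg (o : c.Ok) (h : Gd G c κ e g U) : ∀ᶠ p in G,
    ‖rep (gT G c.M c.a g).P0 p * rep (gT G c.M c.a g).P4 p‖ < e * ‖rep (gT G c.M c.a g).P2 p‖ ^ 2 ∧
    (rep (nr G c.M c.a g) p).re < 0 ∧ (|dd c (pj p.2)| < 2 → 0 < (rep (lr G c.M c.a g) p).re ∧
      (rep ((sG G g).dot (lr G c.M c.a g • (fT G c.M c.a g).n - nr G c.M c.a g • (fT G c.M c.a g).l)
        (vk G c.X)) p).re < 0) ∧
    0 < (Matrix.of fun i d => rep (fv (fT G c.M c.a g) i d) p).det.im := by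
  have k := gd_k1 h
  obtain ⟨m, f, m', e1, e2⟩ := hom1 k
  have r : ∀ {u v}, (rx_of k).rix u = v → Rs v fun p => rep u (g p.1, p.2) :=
    fun e => e ▸ (rx_of k).rep _
  have x : vm (rx_of k).rix (vk (G1 c.M c.a) c.X) = vk G c.X := funext fun d =>
    ((rx_of k).rs (rs_vk (pos (g := id) G1_ev) o d).2).ext (rs_vk (pos k) o d).2 EventuallyEq.rfl
  have f1 : vm (rx_of k).rix (fT (G1 c.M c.a) c.M c.a id).l = (fT G c.M c.a g).l := congrArg Fr.l f
  have f2 : vm (rx_of k).rix (fT (G1 c.M c.a) c.M c.a id).n = (fT G c.M c.a g).n := congrArg Fr.n f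
  have r1 := r ((map_mul _ _ _).trans (congrArg₂ (· * ·) m'.P0 m'.P4))
  have r2 := r (m.dot (lr (G1 c.M c.a) c.M c.a id • (fT (G1 c.M c.a) c.M c.a id).n -
    nr (G1 c.M c.a) c.M c.a id • (fT (G1 c.M c.a) c.M c.a id).l) (vk (G1 c.M c.a) c.X))
  have r3 : ∀ i d, Rs (fv (fT G c.M c.a g) i d) fun p =>
      rep (fv (fT (G1 c.M c.a) c.M c.a id) i d) (g p.1, p.2) := fun i d => r (by
    rw [← f]
    generalize fT (G1 c.M c.a) c.M c.a id = F
    fin_cases i <;> rfl)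
  rw [sub_eq_add_neg, vm_add, vm_neg, vm_smul, vm_smul, e1, e2, x, f1, f2, ← sub_eq_add_neg,
    ← sub_eq_add_neg] at r2
  filter_upwards [h, ((rs_rep _).mul (rs_rep _)).eq r1, rs_P2 k, r e2, r e1, r2,
    eventually_all.2 fun i => eventually_all.2 (r3 i)] with p s a1 a2 a3 a4 a5 a6
  rw [a1, a2, a3, a4, a5, funext₂ a6]
  exact ⟨s.1.tt, s.1.nr, fun t => ⟨s.1.lr t, s.1.fut t⟩, s.1.ori⟩

theorem nr_unit (o : c.Ok) (h : Gd G c κ e g U) : IsUnit (nr G c.M c.a g) :=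
  isUnit_of_ne ((gd_sg o h).mono fun _ k z => by simpa [z] using k.2.1)

theorem lr_unit (o : c.Ok) (h : Gd G c κ e g U) (u : U ⊆ {d | |d| < 2}) : IsUnit (lr G c.M c.a g) :=
  isUnit_of_ne (((gd_sg o h).and h).mono fun _ k z => by
    simpa [z] using (k.1.2.2.1 (u k.2.2.2)).1)

end Vale.Agent.P354CS
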