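import Vale.Agent.P354CQ.Defs
import Vale.Agent.P354YN.Pnt

/-!
SG: the gradient of a function with spacelike levels is causal.
-/

set_option linter.all false

open scoped ContDiff
open Set Filter Topology Complex

noncomputable section

namespace Vale.Agent.P354CS

open Vale.Agent.P354n (R4)
open Vale.Agent.P354RC (bs cv sum_bs)
open Vale.Agent.P354XG Vale.Agent.P354XD Vale.Agent.P354XR Vale.Agent.P354XI
open Vale.Agent.P354Z (Cone ge rv)
open Vale.Agent.P354XE (Tw)
open Vale.Agent.P354XV (jet)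
open Vale.Agent.P354YN (C4 V4 N4 cM cV rV vc cV_rV gm_cV gm_add1 gm_add2 gm_smul1 gm_smul2 g0)

abbrev gq (G : N4) (x y : C4) : ℂ := P354YN.gm (cM G) x y

/-- The pointwise statement; G is the metric and k the covector. -/
theorem causal {G : N4} {k : V4} {l n m : C4} (rl : star l = l) (rn : star n = n)
    (sy : ∀ x y, gq G x y = gq G y x) (ll : gq G l l = 0) (nn : gq G n n = 0) (mm : gq G m m = 0)
    (ln : gq G l n = -1) (lm : gq G l m = 0) (nm : gq G n m = 0) (mb : gq G m (star m) = 1)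
    (sp : ∀ v : V4, v ≠ 0 → v ⬝ᵥ k = 0 → 0 < v ⬝ᵥ (G.mulVec v))
    (po : 0 < (l ⬝ᵥ cV k).re + (n ⬝ᵥ cV k).re) :
    0 ≤ (l ⬝ᵥ cV k).re ∧ 0 ≤ (n ⬝ᵥ cV k).re ∧
      ‖m ⬝ᵥ cV k‖ ^ 2 ≤ (l ⬝ᵥ cV k).re * (n ⬝ᵥ cV k).re := by
  have st : ∀ x y, star (gq G x y) = gq G (star x) (star y) := fun x y => by
    simp only [P354YN.gm, dotProduct, Matrix.mulVec, star_sum, star_mul', cM, Pi.star_apply,
      RCLike.star_def, conj_ofReal]
  have sk : ∀ x : C4, star x ⬝ᵥ cV k = star (x ⬝ᵥ cV k) := fun x => by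
    simp only [dotProduct, star_sum, star_mul', cV, Pi.star_apply, RCLike.star_def, conj_ofReal]
  have lb : gq G l (star m) = 0 := by rw [← rl, ← st, lm, star_zero]
  have nb : gq G n (star m) = 0 := by rw [← rn, ← st, nm, star_zero]
  have bb : gq G (star m) (star m) = 0 := by rw [← st, mm, star_zero]
  obtain ⟨α, hα⟩ : ∃ α : ℝ, l ⬝ᵥ cV k = α :=
    ⟨_, (conj_eq_iff_re.1 ((sk l).symm.trans (by rw [rl]))).symm⟩
  obtain ⟨β, hβ⟩ : ∃ β : ℝ, n ⬝ᵥ cV k = β :=
    ⟨_, (conj_eq_iff_re.1 ((sk n).symm.trans (by rw [rn]))).symm⟩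
  have key : ∀ (a b : ℝ) (c : ℂ), a ≠ 0 ∨ b ≠ 0 →
      a * α + b * β + star c * (m ⬝ᵥ cV k) + c * star (m ⬝ᵥ cV k) = 0 → a * b < normSq c :=
    fun a b c h0 h1 => by
      obtain ⟨v, hv⟩ : ∃ v, cV v = (a : ℂ) • l + (b : ℂ) • n + star c • m + c • star m :=
        ⟨_, cV_rV (by
          simp only [star_add, star_smul, star_star, rl, rn, RCLike.star_def, conj_ofReal,
            conj_conj]
          abel)⟩
      have q : gq G (cV v) (cV v) = (2 * (normSq c - a * b) : ℝ) ∧ gq G (cV v) l = -b ∧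
          gq G (cV v) n = -a := by
        simp only [hv, gm_add1, gm_add2, gm_smul1, gm_smul2, sy n l, sy m l, sy (star m) l, sy m n,
          sy (star m) n, sy (star m) m, ll, nn, mm, ln, lm, nm, mb, lb, nb, bb]
        push_cast
        rw [normSq_eq_conj_mul_self, RCLike.star_def]
        exact ⟨by ring, by ring, by ring⟩
      have v0 : v ≠ 0 := fun o => by
        have z : ∀ y, gq G (cV v) y = 0 := fun y => by simp [o, P354YN.gm, cV, dotProduct]
        rw [z, z, z] at q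
        exact h0.elim (fun h => h (by simpa using q.2.2)) fun h => h (by simpa using q.2.1)
      have v1 : ((v ⬝ᵥ k : ℝ) : ℂ) = 0 := by
        rw [← h1, ← hα, ← hβ, ← sk, ← smul_eq_mul, ← smul_eq_mul, ← smul_eq_mul, ← smul_eq_mul,
          ← smul_dotProduct, ← smul_dotProduct, ← smul_dotProduct, ← smul_dotProduct,
          ← add_dotProduct, ← add_dotProduct, ← add_dotProduct, ← hv]
        simp only [dotProduct, cV, ofReal_sum, ofReal_mul]
      have := sp v v0 (ofReal_eq_zero.1 v1)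
      rw [ofReal_injective ((gm_cV ..).symm.trans q.1)] at this
      linarith
  rw [hα, hβ, ofReal_re, ofReal_re] at po ⊢
  have k1 := key β (-α) 0 (by
    by_contra o
    push Not at o
    linarith [o.1, o.2]) (by simp [mul_comm])
  rw [map_zero] at k1
  have a0 : 0 < α := by nlinarith
  have b0 : 0 < β := by nlinarith
  refine ⟨a0.le, b0.le, ?_⟩
  rw [← normSq_eq_norm_sq]
  generalize m ⬝ᵥ cV k = γ at key
  rcases (normSq_nonneg γ).eq_or_lt with o | o
  · rw [← o]
    positivity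
  · have k2 := key (normSq γ * β) (normSq γ * α) (-(α * β : ℝ) * γ) (.inl (by positivity)) (by
      simp only [star_mul', star_neg, RCLike.star_def, conj_ofReal]
      push_cast
      rw [normSq_eq_conj_mul_self]
      ring)
    rw [map_mul, normSq_neg, normSq_ofReal] at k2
    have : 0 < normSq γ * (α * β) := by positivity
    nlinarith

variable {O : Set E6} {x : E6} {s : Sm (on O)} {f : R4 → ℝ}

/-- The chain rule at one point. -/
theorem pd_at (h : Cone O) (hs : ∀ y ∈ O, fv s y = f (pj y)) (hx : x ∈ O)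
    (hf : DifferentiableAt ℝ f (pj x)) (v : E6) : fv (pd v s) x =
      ∑ a, (fderiv ℝ f (pj x) (bs a) : ℂ) * fv (pd v ((hp (on O)).co a)) x := by
  have o : Off (on O) := on_of h.op fun y hy => ⟨(h.pos y hy).1.ne', (h.pos y hy).2⟩
  have k := ((cd_pj (h.pos x hx).2).differentiableAt (by simp)).hasFDerivAt
  have e1 : fv s =ᶠ[𝓝 x] fun y => (f (pj y) : ℂ) := (h.op.eventually_mem hx).mono hs
  have e2 : ∀ a, fv ((hp (on O)).co a) =ᶠ[𝓝 x] fun y => (cv a (pj y) : ℂ) := fun a =>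
    (h.op.eventually_mem hx).mono fun y hy => (fv_in _ hy).trans (ev_on (rs_co o a) hy)
  have k1 : fderiv ℝ (fun y => (f (pj y) : ℂ)) x = _ :=
    (ofRealCLM.hasFDerivAt.comp x (hf.hasFDerivAt.comp x k)).fderiv
  have k2 : ∀ a, fderiv ℝ (fun y => (cv a (pj y) : ℂ)) x = _ := fun a =>
    (ofRealCLM.hasFDerivAt.comp x ((cv a).hasFDerivAt.comp x k)).fderiv
  simp only [fv_pd h.op _ _ hx, e1.fderiv_eq, (e2 _).fderiv_eq, k1, k2,
    ContinuousLinearMap.comp_apply, ofRealCLM_apply]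
  conv_lhs => rw [← sum_bs (fderiv ℝ pj x v)]
  simp only [map_sum, map_smul, smul_eq_mul, ofReal_sum, ofReal_mul, mul_comm]

theorem act_at (h : Cone O) (hs : ∀ y ∈ O, fv s y = f (pj y)) (hx : x ∈ O)
    (hf : DifferentiableAt ℝ f (pj x)) (g : Tw) (u : Op (Sm (on O))) :
    fv ((ge O g).act u s) x = (fun a => fv (u.X a) x) ⬝ᵥ cV fun a => fderiv ℝ f (pj x) (bs a) := by
  have o : Off (on O) := on_of h.op fun y hy => ⟨(h.pos y hy).1.ne', (h.pos y hy).2⟩
  have d : ∀ i, evO ⟨x, hx⟩ ((hp (on O)).d i s) =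
      ∑ a, (fderiv ℝ f (pj x) (bs a) : ℂ) * evO ⟨x, hx⟩ ((hp (on O)).d i ((hp (on O)).co a)) :=
    fun i => by
      have e : ∀ v, evO ⟨x, hx⟩ (pd v s) = ∑ a, (fderiv ℝ f (pj x) (bs a) : ℂ) *
        evO ⟨x, hx⟩ (pd v ((hp (on O)).co a)) := pd_at h hs hx hf
      simp only [hp_d, map_add, map_mul, e, Fin.sum_univ_four]
      ring
  have e : ∀ a, u.X a = (ge O g).act u ((hp (on O)).co a) := fun a =>
    (congrFun ((hp_is o).prj_act _ _ u) a).symm
  show evO ⟨x, hx⟩ _ = ∑ a, evO ⟨x, hx⟩ (u.X a) * _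
  rw [Finset.sum_congr rfl fun a _ => by rw [e a]]
  simp only [Geo.act_apply, ge, geo, Hp.geo, Hp.L_ap, Hp.P_ap, Hp.Q_ap, Hp.H_ap, Hp.B_ap, map_add,
    map_mul, map_sub, d, Fin.sum_univ_four, cV]
  ring

theorem sg : P354CQ.SG := fun O g F s f h hv N hs x hx hf sp po => by
  have o : Off (on O) := on_of h.op fun y hy => ⟨(h.pos y hy).1.ne', (h.pos y hy).2⟩
  obtain ⟨D, hD, hp', M, -⟩ := hv x hx
  have c : ∀ Z : Vec (Sm (on O)), (fun a => fv ((ge O g).cv Z a) x) = star fun a => fv (Z a) x :=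
    fun Z => funext fun a => fv_cj _ _
  have d : ∀ Y Z : Vec (Sm (on O)), gq ((1 / 2 : ℝ) • g0 (jet 0 g (pj x))) (fun a => fv (Y a) x)
      (fun a => fv (Z a) x) = evO ⟨x, hx⟩ ((ge O g).dot Y Z) := fun Y Z => by
    have e : ∀ a b, evO ⟨x, hx⟩ ((ge O g).g a b) =
        cM ((1 / 2 : ℝ) • g0 (jet 0 g (pj x))) a b := fun a b => by
      have r := ev_on (rs_pb o (f := fun _ => gc g a b) (on_of h.op fun y hy => (hv y hy).sm_g a b)) hx
      rw [← fv_in _ hx] at r
      show fv (_ * _) x = _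
      rw [fv_mul, fv_alg _ hx, r, cM, Matrix.smul_apply, P354YN.g0_jet, tb_bs, smul_eq_mul,
        ofReal_mul]
      rfl
    simp only [Geo.dot, map_sum, map_mul, e, P354YN.gm, dotProduct, Matrix.mulVec, Finset.mul_sum]
    exact Finset.sum_congr rfl fun _ _ => Finset.sum_congr rfl fun _ _ => by
      rw [mul_left_comm, mul_assoc]
      rfl
  have a := fun u => act_at h hs hx hf g u
  simp only [rv, Fr.ghp, Geo.ghp, Geo.mk', a, Geo.hat] at po ⊢
  refine causal (G := (1 / 2 : ℝ) • g0 (jet 0 g (pj x))) (by rw [← c, N.c_l]) (by rw [← c, N.c_n])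
    (fun y z => ?_) (by rw [d, N.ll, map_zero]) (by rw [d, N.nn, map_zero])
    (by rw [d, N.mm, map_zero]) (by rw [d, N.ln, map_neg, map_one]) (by rw [d, N.lm, map_zero])
    (by rw [d, N.nm, map_zero]) (by rw [← c, N.c_m, d, N.mmb, map_one]) (fun v v0 v1 => ?_) po
  · have := P354YN.g0_symm hD M hp' 0
    simp only [P354YN.gm, dotProduct, Matrix.mulVec, Finset.mul_sum, cM, Matrix.smul_apply]
    rw [Finset.sum_comm]
    exact Finset.sum_congr rfl fun i _ => Finset.sum_congr rfl fun j _ => by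
      rw [← congrFun (congrFun this i) j, Matrix.transpose_apply]
      ring
  · have := sp (vc v) (fun e => v0 (by
      rw [← P354YN.co_vc v, e]
      funext i
      fin_cases i <;> rfl)) (by
        rw [P354YN.vc_eq, map_sum, ← v1]
        simp only [map_smul, smul_eq_mul, dotProduct])
    rw [← P354YN.ip_jet hD M hp' 0, P354YN.ip, P354YN.co_vc] at this
    rw [Matrix.smul_mulVec, dotProduct_smul, smul_eq_mul]
    positivity

end Vale.Agent.P354CS
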