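import Vale.Agent.P354CS.Alg

open scoped ContDiff
open Set

namespace Vale.Agent.P354CS

open Vale.Agent.P354C Vale.Agent.P354H
open Vale.Agent.P354n (R4)

section
variable {F G : Type} [NormedAddCommGroup F] [NormedSpace ℝ F] [NormedAddCommGroup G]
  [NormedSpace ℝ G]

theorem pdl_clm (L : F →L[ℝ] G) (α : List (Fin 3)) {f : X3 → F} (hf : ContDiff ℝ ∞ f) :
    pdl α (fun x => L (f x)) = fun x => L (pdl α f x) := by
  induction α generalizing f with
  | nil => rfl
  | cons j α ih =>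
    have e : pd j (fun x => L (f x)) = fun x => L (pd j f x) := funext fun x => by
      unfold pd
      rw [show fderiv ℝ (fun x => L (f x)) x = _ from (L.hasFDerivAt.comp x
        (dif hf x).hasFDerivAt).fderiv]
      rfl
    simp only [pdl]
    rw [e, ih (pd_sm j hf)]

theorem sb_clm {k : ℕ} {f : X3 → F} {c d : ℝ} (L : F →L[ℝ] G) (hL : ‖L‖ ≤ d) (h : Sb k f c)
    (hf : ContDiff ℝ ∞ f) : Sb k (fun x => L (f x)) (d * c) := fun α hα x => by
  rw [pdl_clm L α hf]
  exact (L.le_opNorm _).trans (mul_le_mul hL (h α hα x) (norm_nonneg _) ((norm_nonneg _).trans hL))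

theorem sb_const (k : ℕ) {v : G} {d : ℝ} (h : ‖v‖ ≤ d) : Sb k (fun _ : X3 => v) d := by
  intro α _ x
  cases α with
  | nil => exact h
  | cons j α =>
    have e : pd j (fun _ : X3 => v) = 0 := funext fun x => by simp [pd]
    simp only [pdl]
    rw [e, pdl_zero]
    simpa using (norm_nonneg _).trans h

theorem sb_pi {ι : Type} [Fintype ι] {k : ℕ} {f : X3 → ι → ℝ} {c : ℝ} (hc : 0 ≤ c)
    (hf : ContDiff ℝ ∞ f) (h : ∀ i, Sb k (fun x => f x i) c) : Sb k f c := fun α hα x => by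
  refine (pi_norm_le_iff_of_nonneg hc).2 fun i => ?_
  have e := congrFun (pdl_clm (ContinuousLinearMap.proj (R := ℝ) (φ := fun _ : ι => ℝ) i) α hf) x
  exact (congrArg norm e).symm.le.trans (h i α hα x)

/-- Composition on the right with A. -/
noncomputable def cR (A : V →L[ℝ] F) : (F →L[ℝ] V) →L[ℝ] V →L[ℝ] V :=
  (ContinuousLinearMap.compL ℝ V F V).flip A

theorem cR_ap (A : V →L[ℝ] F) (T : F →L[ℝ] V) (w : V) : cR A T w = T (A w) := rfl

theorem cR_le {A : V →L[ℝ] F} (h : ‖A‖ ≤ 1) : ‖cR A‖ ≤ 1 :=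
  ContinuousLinearMap.opNorm_le_bound _ zero_le_one fun T => by
    rw [one_mul]
    exact (T.opNorm_comp_le A).trans (mul_le_of_le_one_right (norm_nonneg _) h)

theorem comp_le {H : Type} [NormedAddCommGroup H] [NormedSpace ℝ H] {A : G →L[ℝ] H}
    {A' : F →L[ℝ] G} {c d : ℝ} (h : ‖A‖ ≤ c) (h' : ‖A'‖ ≤ d) : ‖A.comp A'‖ ≤ c * d :=
  (A.opNorm_comp_le A').trans (mul_le_mul h h' (norm_nonneg _) ((norm_nonneg _).trans h))

end

/-- The linear maps which give the coefficients of the system. -/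
noncomputable def La (μ : Fin 4) : (Ix → ℝ) →L[ℝ] V →L[ℝ] V := (cR Di).comp ((B PT).comp (EL μ))
noncomputable def Lb : (Ix → ℝ) →L[ℝ] V →L[ℝ] V := (cR Di).comp (B QT + (B QT).flip)
noncomputable def Lc (μ : Fin 4) : (Ix → ℝ) →L[ℝ] V →L[ℝ] V :=
  (cR ((EL μ).comp Di)).comp (B PT).flip

theorem La_le (μ : Fin 4) : ‖La μ‖ ≤ 228 :=
  (comp_le (cR_le Di_le) (comp_le B1_le (EL_le μ))).trans (by norm_num)

theorem Lb_le : ‖Lb‖ ≤ 5320 := by
  refine (comp_le (cR_le Di_le) ((norm_add_le _ _).trans (add_le_add B2_le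
    ((ContinuousLinearMap.opNorm_flip _).le.trans B2_le)))).trans (by norm_num)

theorem Lc_le (μ : Fin 4) : ‖Lc μ‖ ≤ 228 :=
  (comp_le (cR_le ((comp_le (EL_le μ) Di_le).trans (by norm_num)))
    ((ContinuousLinearMap.opNorm_flip _).le.trans B1_le)).trans (by norm_num)

theorem ap_le {F G : Type} [NormedAddCommGroup F] [NormedSpace ℝ F] [NormedAddCommGroup G]
    [NormedSpace ℝ G] {A : F →L[ℝ] G} {v : F} {c d : ℝ} (h : ‖A‖ ≤ c) (h' : ‖v‖ ≤ d) :
    ‖A v‖ ≤ c * d :=
  (A.le_opNorm v).trans (mul_le_mul h h' (norm_nonneg _) ((norm_nonneg _).trans h))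

/-- The system for the perturbation of the background K. -/
noncomputable def sysK (K : R4 → Ix → ℝ) : Sys V where
  a j p := cR Di (B PT (E0 j.succ)) + La j.succ (K p)
  l j _ := (La j.succ).comp Di
  b p := cR Di (B LT 1) + Lb (K p) + ∑ j : Fin 3, Lc j.succ (dx j K p)
  q _ := ((cR Di).comp (B QT)).comp Di

theorem A_ap (K : R4 → Ix → ℝ) (j : Fin 3) (p : R4) (w z : V) :
    (sysK K).A j p w z = B PT (E0 j.succ + EL j.succ (K p + Di w)) (Di z) := by
  simp [Sys.A, sysK, La, cR_ap, add_assoc]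

theorem F_ap (K : R4 → Ix → ℝ) (p : R4) (w : V) :
    (sysK K).F p w = ∑ j : Fin 3, B PT (EL j.succ (Di w)) (dx j K p) + B LT 1 (Di w) +
      B QT (K p) (Di w) + B QT (Di w) (K p) + B QT (Di w) (Di w) := by
  simp only [Sys.F, sysK, Lb, Lc, cR_ap, add_apply, sum_apply, ContinuousLinearMap.comp_apply,
    ContinuousLinearMap.flip_apply]
  abel

theorem sysK_ok {K : R4 → Ix → ℝ} (hK : ContDiff ℝ ∞ K) : (sysK K).OK := by
  refine ⟨⟨fun j => contDiff_const.add ((La _).contDiff.comp hK), fun j => contDiff_const,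
    (contDiff_const.add (Lb.contDiff.comp hK)).add
      (ContDiff.sum fun j _ => (Lc _).contDiff.comp (P354HL.dx_sm hK j)), contDiff_const⟩,
    fun j p v w => ?_, fun j p z => sym_B1 (EL j.succ (Di z))⟩
  simpa [sysK, La, cR_ap] using sym_B1 (E0 j.succ + EL j.succ (K p)) v w

theorem sysK_bd {K : R4 → Ix → ℝ} (hK : ContDiff ℝ ∞ K) (I : Set ℝ) (C : ℕ → ℝ)
    (h : ∀ k, ∀ t ∈ I, ∀ i, Sb k (fun x => K (t, x) i) (C k)) :
    (sysK K).Bd I fun k => 10000 * (1 + C (k + 1)) := by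
  intro k t ht
  have h0 : 0 ≤ C (k + 1) := (h (k + 1) t ht Ix.O).nonneg
  have s := P354HL.sl_sm hK t
  have h1 : Sb (k + 1) (sl K t) (C (k + 1)) := sb_pi h0 s (h (k + 1) t ht)
  have h2 : Sb k (sl K t) (C (k + 1)) := h1.low (Nat.le_succ k)
  have d := cR_le Di_le
  refine ⟨fun j => ⟨?_, ?_⟩, ?_, ?_⟩
  · refine ((sb_const k (ap_le d (ap_le B1_le (E0_le j.succ)))).add (sb_clm _ (La_le j.succ) h2 s)
      contDiff_const ((La _).contDiff.comp s)).mono le_rfl ?_
    push_cast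
    linarith
  · exact (sb_const k (comp_le (La_le j.succ) Di_le)).mono le_rfl (by linarith)
  · have c := fun j : Fin 3 => sb_clm _ (Lc_le j.succ) (h1.pd j) (pd_sm j s)
    have m := fun j : Fin 3 => (Lc j.succ).contDiff.comp (pd_sm j s)
    have n := (Lb.contDiff.comp s)
    have r := ((sb_const k (ap_le d (ap_le B0_le (norm_one (α := Unit → ℝ)).le))).add
      (sb_clm _ Lb_le h2 s) contDiff_const n).add ((((c 0).add (c 1) (m 0) (m 1))).add (c 2)
        ((m 0).add (m 1)) (m 2)) (contDiff_const.add n) (((m 0).add (m 1)).add (m 2))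
    have e : sl (sysK K).b t = ((fun _ => cR Di (B LT 1)) + fun x => Lb (sl K t x)) +
        (((fun x => Lc (0 : Fin 3).succ (pd 0 (sl K t) x)) +
          fun x => Lc (1 : Fin 3).succ (pd 1 (sl K t) x)) +
          fun x => Lc (2 : Fin 3).succ (pd 2 (sl K t) x)) := by
      funext x
      simp only [P354HL.pd_sl hK, sl, sysK, Fin.sum_univ_three, Pi.add_apply]
    rw [e]
    refine r.mono le_rfl ?_
    push_cast
    linarith
  · refine (sb_const k (comp_le (comp_le d B2_le) Di_le)).mono le_rfl ?_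
    push_cast
    linarith

theorem Dc_eq {U : R4 → Ix → ℝ} {p : R4} (h : DifferentiableAt ℝ U p) (μ : Fin 4) :
    Dc U p μ = fderiv ℝ U p (bas μ) := by
  funext i
  rw [Dc, fderiv_apply h]
  rfl

theorem bas_succ (j : Fin 3) : bas j.succ = (0, e j) := by fin_cases j <;> rfl

theorem pert_eq (K : R4 → Ix → ℝ) (W : R4 → V) : pert K W = fun p => K p + Di (W p) := by
  funext p i
  simp [pert, Di_ap]

/-- The difference of the left sides for K + W / sc and for K. -/
theorem Res_pert {K : R4 → Ix → ℝ} {W : R4 → V} {p : R4} (hK : DifferentiableAt ℝ K p)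
    (hW : DifferentiableAt ℝ W p) :
    Res (pert K W p) (Dc (pert K W) p) = Res (K p) (Dc K p) + (-dt W p +
      ∑ j, (sysK K).A j p (W p) (dx j W p) + (sysK K).F p (W p)) := by
  have d : HasFDerivAt (fun p => K p + Di (W p)) _ p :=
    hK.hasFDerivAt.add (Di.hasFDerivAt.comp p hW.hasFDerivAt)
  have e : Dc (pert K W) p = fun μ => Dc K p μ + Di (fderiv ℝ W p (bas μ)) := funext fun μ => by
    rw [pert_eq, Dc_eq d.differentiableAt, Dc_eq hK, d.fderiv]
    rfl
  rw [e, pert_eq, Res_add]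
  simp only [A_ap, F_ap, Dc_eq hK, bas_succ]
  rfl

theorem holds_iff {K : R4 → Ix → ℝ} {W : R4 → V} {p : R4} (hK : DifferentiableAt ℝ K p)
    (hW : DifferentiableAt ℝ W p) : (sysK K).Holds W p ↔
      ∀ i, res (pert K W p) (dfr (pert K W) p) i = res (K p) (dfr K p) i := by
  rw [res_iff, Res_pert hK hW, add_eq_left, Sys.Holds, add_assoc, neg_add_eq_zero]

theorem smu_iff {K : R4 → Ix → ℝ} : SmU K univ ↔ ContDiff ℝ ∞ K := by
  simp only [SmU, contDiffOn_univ, contDiff_pi]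

theorem sys : SYS := fun K hK =>
  have h := smu_iff.1 hK
  ⟨sysK K, sysK_ok h, sysK_bd h, fun _ p hW => holds_iff (h.differentiable (by simp) p) hW⟩

end Vale.Agent.P354CS
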